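import Vale.Agent.P166F.Low.Rot.Grad

/-!
P166: the perturbed log-sum is concentrated.
-/

namespace Vale.Agent.P166F.Low

open MeasureTheory ProbabilityTheory Matrix
open scoped RealInnerProductSpace
open Vale.Agent.P166 (spin)
open Vale.Agent.P166N.Spectrum (OrthInvLaw)
open Vale.Agent.P166F.Loop2 (vel dl_eq)

variable {κ : Type} [DecidableEq κ] {N n P : ℕ} {dl : κ → ℝ} {lbl : Fin N → κ} {f : κ} {s Λ : ℝ}
  {y : CIdx Unit P → ℝ}

/-- The sign of a tensor entry under flips of coordinates. -/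
def tsign (ε : Fin N → Bool) (x : GIdx Unit P N) : ℝ := ∏ j, ∏ t, spin (ε (x.2 j t))

lemma tsign_sq (ε : Fin N → Bool) (x : GIdx Unit P N) : tsign ε x * tsign ε x = 1 := by
  rw [← sq, tsign]
  simp only [← Finset.prod_pow, spin_sq, Finset.prod_const_one]

/-- Flips of coordinates acting on the fields. -/
noncomputable def tflip (ε : Fin N → Bool) :
    EuclideanSpace ℝ (GIdx Unit P N) ≃ₗᵢ[ℝ] EuclideanSpace ℝ (GIdx Unit P N) where
  toFun g := WithLp.toLp 2 fun x => tsign ε x * g x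
  invFun g := WithLp.toLp 2 fun x => tsign ε x * g x
  map_add' g h := by ext x; simp [mul_add]
  map_smul' c g := by ext x; simp; ring
  left_inv g := by ext x; simp [← mul_assoc, tsign_sq]
  right_inv g := by ext x; simp [← mul_assoc, tsign_sq]
  norm_map' g := by
    rw [EuclideanSpace.norm_eq, EuclideanSpace.norm_eq]
    congr 1
    refine Finset.sum_congr rfl fun x _ => ?_
    show ‖tsign ε x * g x‖ ^ 2 = ‖g x‖ ^ 2
    rw [norm_mul, mul_pow, Real.norm_eq_abs (tsign ε x), sq_abs, sq (tsign ε x), tsign_sq, one_mul]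

lemma tflip_apply (ε : Fin N → Bool) (g : EuclideanSpace ℝ (GIdx Unit P N)) (x : GIdx Unit P N) :
    tflip ε g x = tsign ε x * g x := rfl

lemma map_tflip (ε : Fin N → Bool) :
    (stdGaussian (EuclideanSpace ℝ (GIdx Unit P N))).map (tflip ε) = stdGaussian _ :=
  stdGaussian_map (tflip ε)

lemma integral_tflip (ε : Fin N → Bool) {F : EuclideanSpace ℝ (GIdx Unit P N) → ℝ}
    (hF : AEStronglyMeasurable F (stdGaussian _)) :
    ∫ g, F (tflip ε g) ∂stdGaussian _ = ∫ g, F g ∂stdGaussian _ := by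
  conv_rhs => rw [← map_tflip ε]
  rw [integral_map (tflip ε).continuous.measurable.aemeasurable (by rwa [map_tflip])]

/-- A flip of one coordinate as a change of all signs. -/
def xflip (a : Fin N) (ε : Fin N → Bool) : Fin N → Bool := fun i => if i = a then !ε i else ε i

lemma spin_xflip (a : Fin N) (ε : Fin N → Bool) (i : Fin N) :
    spin (xflip a ε i) = (if i = a then -1 else 1) * spin (ε i) := by
  unfold xflip spin
  split_ifs <;> cases h : ε i <;> simp_all

lemma xflip_involutive (a : Fin N) : Function.Involutive (xflip a : (Fin N → Bool) → Fin N → Bool) :=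
  fun ε => by funext i; unfold xflip; split <;> simp

lemma pertH_flip (a : Fin N) (ε : Fin N → Bool) (U : Fin N → Fin N → ℝ)
    (g : EuclideanSpace ℝ (GIdx Unit P N)) (σ : Fin N → Bool) :
    pertH dl n lbl f s y (Orth.mm (Orth.flip1 a) U) (tflip ε g) σ =
      pertH dl n lbl f s y U (tflip (xflip a ε) g) σ := by
  have hc : ∀ i, coord (Orth.mm (Orth.flip1 a) U) σ i = (if i = a then -1 else 1) * coord U σ i :=
    fun i => by
      simp only [coord, Orth.mm, Orth.flip1, Equiv.apply_symm_apply, of_symm_apply, diagonal_mul,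
        of_apply, Finset.mul_sum, mul_assoc]
  have hv : ∀ i, featV n lbl f (Orth.mm (Orth.flip1 a) U) σ i =
      (if i = a then -1 else 1) * featV n lbl f U σ i := fun i => by
    simp only [featV, hc]
    by_cases h : lbl i = f
    · simp only [if_pos h, mul_div_assoc]
    · simp only [if_neg h, mul_zero]
  have hsq : ∀ i : Fin N, ((if i = a then -1 else 1 : ℝ)) ^ 2 = 1 := fun i => by split <;> simp
  have hE : clsEnergy dl lbl (Orth.mm (Orth.flip1 a) U) σ = clsEnergy dl lbl U σ := by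
    simp only [clsEnergy, hc, mul_pow, hsq, one_mul]
  have hn : ‖featV n lbl f (Orth.mm (Orth.flip1 a) U) σ‖ ^ 2 = ‖featV n lbl f U σ‖ ^ 2 := by
    simp only [EuclideanSpace.real_norm_sq_eq, hv, mul_pow, hsq, one_mul]
  have hi : ⟪tflip ε g, pvec y (featV n lbl f (Orth.mm (Orth.flip1 a) U) σ)⟫ =
      ⟪tflip (xflip a ε) g, pvec y (featV n lbl f U σ)⟫ := by
    simp only [PiLp.inner_apply, RCLike.inner_apply, conj_trivial, tflip_apply, pvec, hv]
    refine Finset.sum_congr rfl fun x _ => ?_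
    simp only [tsign, spin_xflip, Finset.prod_mul_distrib]
    ring
  simp only [pertH, hE, hn, hi]

/-- The log-sum averaged over flips of all coordinates. -/
noncomputable def favg (dl : κ → ℝ) (n : ℕ) (lbl : Fin N → κ) (f : κ) (s : ℝ) (y : CIdx Unit P → ℝ)
    (g : EuclideanSpace ℝ (GIdx Unit P N)) (U : Fin N → Fin N → ℝ) : ℝ :=
  ((2 : ℝ) ^ N)⁻¹ * ∑ ε : Fin N → Bool, plog dl n lbl f s y U (tflip ε g)

lemma favg_flip (a : Fin N) (U : Fin N → Fin N → ℝ) (g : EuclideanSpace ℝ (GIdx Unit P N)) :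
    favg dl n lbl f s y g (Orth.mm (Orth.flip1 a) U) = favg dl n lbl f s y g U := by
  simp only [favg]
  refine congrArg _ (Fintype.sum_bijective (xflip a) (xflip_involutive a).bijective _ _ fun ε => ?_)
  simp only [plog, pertH_flip]

lemma contDiff_plog (g : EuclideanSpace ℝ (GIdx Unit P N)) :
    ContDiff ℝ 1 fun U => plog dl n lbl f s y U g :=
  Orth.contDiff_lse (h := fun σ U => pertH dl n lbl f s y U g σ) fun σ => contDiff_pertH g σ

lemma contDiff_favg (g : EuclideanSpace ℝ (GIdx Unit P N)) :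
    ContDiff ℝ 1 (favg dl n lbl f s y g) :=
  contDiff_const.mul (ContDiff.sum fun ε _ => contDiff_plog (tflip ε g))

/-- The largest squared gradient. -/
noncomputable def gmax (n : ℕ) (lbl : Fin N → κ) (f : κ) (y : CIdx Unit P → ℝ)
    (U : Fin N → Fin N → ℝ) (g : EuclideanSpace ℝ (GIdx Unit P N)) : ℝ :=
  Finset.univ.sup' Finset.univ_nonempty fun σ => ‖ggrad n lbl f y U σ g‖ ^ 2

lemma sum_sq_dl_favg_le (hΛ : ∀ j, |dl j| ≤ Λ) (hs : 0 ≤ s) (hy : y ∈ PBox s)
    {U : Fin N → Fin N → ℝ} (hU : (Matrix.of U)ᵀ * Matrix.of U = 1)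
    (g : EuclideanSpace ℝ (GIdx Unit P N)) :
    ∑ a, ∑ b, Orth.dl (favg dl n lbl f s y g) a b U ^ 2 ≤
      8 * Λ ^ 2 * (N : ℝ) ^ 2 + 256 * s ^ 4 +
        16 * (((2 : ℝ) ^ N)⁻¹ * ∑ ε : Fin N → Bool, gmax n lbl f y U (tflip ε g)) := by
  set c : ℝ := ((2 : ℝ) ^ N)⁻¹
  have hc : c * (Fintype.card (Fin N → Bool) : ℝ) = 1 := by simp [c]
  have hlin : ∀ a b, Orth.dl (favg dl n lbl f s y g) a b U =
      c * ∑ ε : Fin N → Bool, Orth.dl (fun U => plog dl n lbl f s y U (tflip ε g)) a b U := by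
    intro a b
    refine dl_eq (contDiff_favg g) ?_
    refine HasDerivAt.const_mul c (HasDerivAt.fun_sum fun ε _ => ?_)
    exact ((contDiff_plog (tflip ε g)).differentiable one_ne_zero U).hasFDerivAt.comp_hasDerivAt_of_eq 0
      (Loop2.hasDerivAt_line U _) (by simp)
  have hsq : ∀ (a b : Fin N), Orth.dl (favg dl n lbl f s y g) a b U ^ 2 ≤
      c * ∑ ε : Fin N → Bool, Orth.dl (fun U => plog dl n lbl f s y U (tflip ε g)) a b U ^ 2 := by
    intro a b
    rw [hlin, mul_pow]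
    refine (mul_le_mul_of_nonneg_left sq_sum_le_card_mul_sum_sq (sq_nonneg c)).trans_eq ?_
    rw [Finset.card_univ, sq, mul_assoc, ← mul_assoc c (Fintype.card (Fin N → Bool) : ℝ), hc, one_mul]
  have hε : ∀ ε : Fin N → Bool,
      ∑ a, ∑ b, Orth.dl (fun U => plog dl n lbl f s y U (tflip ε g)) a b U ^ 2 ≤
        8 * Λ ^ 2 * (N : ℝ) ^ 2 + 256 * s ^ 4 + 16 * gmax n lbl f y U (tflip ε g) := by
    intro ε
    set h : (Fin N → Bool) → (Fin N → Fin N → ℝ) → ℝ := fun σ U => pertH dl n lbl f s y U (tflip ε g) σ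
    set B := 8 * Λ ^ 2 * (N : ℝ) ^ 2 + 256 * s ^ 4 + 16 * gmax n lbl f y U (tflip ε g)
    have hh : ∀ σ, ContDiff ℝ 1 (h σ) := fun σ => contDiff_pertH _ σ
    have hw := Orth.sum_exp_pos h U
    have hσ : ∀ σ, ∑ a, ∑ b, Orth.dl (h σ) a b U ^ 2 ≤ B := fun σ => by
      refine (sum_sq_dl_pertH_le hΛ hs hy hU (tflip ε g) σ).trans ?_
      have := Finset.le_sup' (fun σ => ‖ggrad n lbl f y U σ (tflip ε g)‖ ^ 2) (Finset.mem_univ σ)
      simp only [B, gmax]
      linarith
    calc ∑ a, ∑ b, Orth.dl (Orth.lse h) a b U ^ 2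
        ≤ ∑ a, ∑ b, (∑ σ, Real.exp (h σ U) * Orth.dl (h σ) a b U ^ 2) / ∑ σ, Real.exp (h σ U) :=
          Finset.sum_le_sum fun a _ => Finset.sum_le_sum fun b _ => Orth.dl_lse_sq_le hh a b U
      _ = (∑ σ, Real.exp (h σ U) * ∑ a, ∑ b, Orth.dl (h σ) a b U ^ 2) / ∑ σ, Real.exp (h σ U) := by
          simp only [← Finset.sum_div, Finset.mul_sum]
          congr 1
          rw [Finset.sum_comm (γ := Fin N → Bool)]
          exact Finset.sum_congr rfl fun a _ => Finset.sum_comm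
      _ ≤ B := by
          rw [div_le_iff₀ hw, Finset.mul_sum]
          refine Finset.sum_le_sum fun σ _ => ?_
          rw [mul_comm B]
          exact mul_le_mul_of_nonneg_left (hσ σ) (Real.exp_pos _).le
  calc ∑ a, ∑ b, Orth.dl (favg dl n lbl f s y g) a b U ^ 2
      ≤ ∑ a, ∑ b, c * ∑ ε : Fin N → Bool, Orth.dl (fun U => plog dl n lbl f s y U (tflip ε g)) a b U ^ 2 :=
        Finset.sum_le_sum fun a _ => Finset.sum_le_sum fun b _ => hsq a b
    _ = c * ∑ ε : Fin N → Bool, ∑ a, ∑ b,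
        Orth.dl (fun U => plog dl n lbl f s y U (tflip ε g)) a b U ^ 2 := by
        simp only [← Finset.mul_sum]
        congr 1
        rw [Finset.sum_comm (γ := Fin N → Bool)]
        exact Finset.sum_congr rfl fun a _ => Finset.sum_comm
    _ ≤ c * ∑ ε : Fin N → Bool,
        (8 * Λ ^ 2 * (N : ℝ) ^ 2 + 256 * s ^ 4 + 16 * gmax n lbl f y U (tflip ε g)) :=
        mul_le_mul_of_nonneg_left (Finset.sum_le_sum fun ε _ => hε ε) (by positivity)
    _ = _ := by
        rw [Finset.sum_add_distrib, Finset.sum_const, nsmul_eq_mul, Finset.card_univ, ← Finset.mul_sum,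
          mul_add, ← mul_assoc, hc]
        ring

lemma continuous_gmax :
    Continuous fun z : (Fin N → Fin N → ℝ) × EuclideanSpace ℝ (GIdx Unit P N) =>
      gmax n lbl f y z.1 z.2 :=
  Continuous.finset_sup'_apply Finset.univ_nonempty fun σ _ => (continuous_ggrad σ).norm.pow 2

lemma gmax_le (hy : y ∈ PBox s) {U : Fin N → Fin N → ℝ}
    (hU : (Matrix.of U)ᵀ * Matrix.of U = 1) (g : EuclideanSpace ℝ (GIdx Unit P N)) :
    |gmax n lbl f y U g| ≤ gcon P s ^ 2 * ‖g‖ ^ 2 := by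
  unfold gmax
  rw [abs_of_nonneg ((sq_nonneg _).trans (Finset.le_sup' (fun σ => ‖ggrad n lbl f y U σ g‖ ^ 2)
    (Finset.mem_univ (fun _ => true)))), ← mul_pow]
  exact Finset.sup'_le _ _ fun σ _ => pow_le_pow_left₀ (norm_nonneg _) (norm_ggrad_le hy hU σ g) 2

lemma continuous_ggrad_right (U : Fin N → Fin N → ℝ) (σ : Fin N → Bool) :
    Continuous (ggrad n lbl f y U σ) :=
  (continuous_ggrad (n := n) (lbl := lbl) (f := f) (y := y) σ).comp
    (f := fun g => (U, g)) (continuous_const.prodMk continuous_id)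

lemma continuous_gmax_right (U : Fin N → Fin N → ℝ) : Continuous (gmax n lbl f y U) :=
  (continuous_gmax (n := n) (lbl := lbl) (f := f) (y := y)).comp
    (f := fun g => (U, g)) (continuous_const.prodMk continuous_id)

lemma measurable_plog_right (U : Fin N → Fin N → ℝ) : Measurable (plog dl n lbl f s y U) :=
  (measurable_plog (dl := dl) (n := n) (lbl := lbl) (f := f) (s := s) (y := y)).comp
    (f := fun g => (U, g)) (measurable_const.prodMk measurable_id)

lemma integral_gmax_le (hs : 0 ≤ s) (hy : y ∈ PBox s) {U : Fin N → Fin N → ℝ}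
    (hU : (Matrix.of U)ᵀ * Matrix.of U = 1) :
    ∫ g, gmax n lbl f y U g ∂stdGaussian _ ≤ 8 * gcon P s ^ 2 * N := by
  obtain ⟨Φ, hΦi, hΦ, hΦv⟩ := exists_dom_sq (G := ggrad n lbl f y U) (ad := gad n lbl f y U)
    (continuous_ggrad_right U)
    (fun σ g h => inner_ggrad U σ g h) (L := gcon P s) (by rw [gcon]; positivity)
    (fun σ h => norm_gad_le hy hU σ h) (by simp)
  refine le_trans (integral_mono_of_nonneg (Filter.Eventually.of_forall fun g => ?_) hΦi
    (Filter.Eventually.of_forall fun g => Finset.sup'_le _ _ fun σ _ => hΦ g σ)) hΦv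
  exact (sq_nonneg _).trans (Finset.le_sup' (fun σ => ‖ggrad n lbl f y U σ g‖ ^ 2)
    (Finset.mem_univ (fun _ => true)))

/-- A function bounded by an affine function of the norm is square integrable. -/
lemma memLp_two_of_affine {E : Type} [NormedAddCommGroup E] [InnerProductSpace ℝ E]
    [FiniteDimensional ℝ E] [MeasurableSpace E] [BorelSpace E] {F : E → ℝ} (hF : Measurable F)
    {b k : ℝ} (h : ∀ g, |F g| ≤ b + ‖g‖ * k) : MemLp F 2 (stdGaussian E) :=
  MemLp.mono' (g := fun g => b + ‖g‖ * k)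
    ((memLp_const b).add (((IsGaussian.memLp_id (stdGaussian E) 2 (by simp)).norm).mul_const k))
    hF.aestronglyMeasurable (Filter.Eventually.of_forall fun g => by simpa using h g)

/-- A log-sum in a Gaussian field deviates by at most the size of the field vectors. -/
lemma mad_lse_field {E : Type} [NormedAddCommGroup E] [InnerProductSpace ℝ E] [FiniteDimensional ℝ E]
    [MeasurableSpace E] [BorelSpace E] {X : Type} [Fintype X] [Nonempty X] [MeasurableSpace X]
    [MeasurableSingletonClass X] (h0 : X → ℝ) (W : X → E) {L : ℝ} (hW : ∀ x, ‖W x‖ ≤ L)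
    {F : E → ℝ} (hF : ∀ g, F g = Real.log (∑ x, Real.exp (h0 x + ⟪g, W x⟫))) (hm : MemLp F 2 (stdGaussian E)) :
    ∫ g, |F g - ∫ g', F g' ∂stdGaussian E| ∂stdGaussian E ≤ Real.sqrt (5 * L ^ 2) := by
  set μ0 : Measure X := (PMF.uniformOfFintype X).toMeasure
  set c : ℝ := (Fintype.card X : ℝ)
  have hc0 : 0 < c := by simp only [c]; exact_mod_cast Fintype.card_pos
  set w : X → ℝ := fun x => Real.exp (h0 x)
  have hwt : Vale.Agent.P157.Wt w := ⟨measurable_of_finite _,
    ⟨∑ x, |Real.log (w x)|, fun x => ⟨Real.exp_pos _, Finset.single_le_sum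
      (f := fun x => |Real.log (w x)|) (fun x _ => abs_nonneg _) (Finset.mem_univ x)⟩⟩⟩
  have hv := Vale.Agent.P157.Low.variance_field (μ := μ0) (E := E) hwt (W := W) (measurable_of_finite _)
    (L := L) hW
  have e : ∀ g, F g = Real.log c + Vale.Agent.P157.Low.lz μ0 W w g := fun g => by
    have hsum : 0 < ∑ x, w x * Real.exp ⟪g, W x⟫ :=
      Finset.sum_pos (fun x _ => mul_pos (Real.exp_pos _) (Real.exp_pos _)) Finset.univ_nonempty
    have e1 : ∫ x, w x * Real.exp ⟪g, W x⟫ ∂μ0 = c⁻¹ * ∑ x, w x * Real.exp ⟪g, W x⟫ := by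
      simp only [μ0, PMF.integral_eq_sum, PMF.uniformOfFintype_apply, smul_eq_mul, ENNReal.toReal_inv,
        ENNReal.toReal_natCast, Finset.mul_sum, c]
    simp only [Vale.Agent.P157.Low.lz, Vale.Agent.P157.logI, e1]
    rw [Real.log_mul (inv_pos.2 hc0).ne' hsum.ne', Real.log_inv, add_neg_cancel_left, hF]
    simp only [w, Real.exp_add]
  refine Orth.mad_le_sqrt ((hm.integrable one_le_two).sub (integrable_const _))
    (hm.sub (memLp_const _)).integrable_sq ?_
  refine le_of_eq_of_le ?_ hv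
  have hlz : Integrable (fun g => Vale.Agent.P157.Low.lz μ0 W w g) (stdGaussian E) :=
    ((hm.integrable one_le_two).sub (integrable_const (Real.log c))).congr
      (Filter.Eventually.of_forall fun g => by simp [e g])
  simp only [Pi.sub_apply, e]
  rw [integral_add (integrable_const _) hlz, integral_const, probReal_univ, one_smul]
  simp only [add_sub_add_left_eq_sub]

/-- Given the array, the log-sum is concentrated in the fields. -/
lemma gauss_dev {U : Fin N → Fin N → ℝ} (hU : (Matrix.of U)ᵀ * Matrix.of U = 1) (hs : 0 ≤ s)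
    (hy : y ∈ PBox s) :
    ∫ g, |plog dl n lbl f s y U g - ∫ g', plog dl n lbl f s y U g' ∂stdGaussian _| ∂stdGaussian _ ≤
      5 * s * (Fintype.card (CIdx Unit P) : ℝ) := by
  set A : ℝ := (Fintype.card (CIdx Unit P) : ℝ)
  have hm : MemLp (plog dl n lbl f s y U) 2 (stdGaussian (EuclideanSpace ℝ (GIdx Unit P N))) :=
    memLp_two_of_affine (measurable_plog_right U) (b := |clog dl lbl U| + 2 * s ^ 2) (k := 2 * s * A)
      fun g => by
        have h := _root_.abs_le.1 (abs_plog_sub_clog (dl := dl) (n := n) (lbl := lbl) (f := f) hU hs hy g)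
        exact _root_.abs_le.2 ⟨by linarith [neg_abs_le (clog dl lbl U)],
          by linarith [le_abs_self (clog dl lbl U)]⟩
  refine (mad_lse_field (fun σ => clsEnergy dl lbl U σ + s * y (Sum.inr ()) * ‖featV n lbl f U σ‖ ^ 2)
    (fun σ => pvec y (featV n lbl f U σ)) (L := 2 * s * A)
    (fun σ => norm_pvec_le (abs_pbox hy) (norm_featV_le_one hU σ)) (fun g => ?_) hm).trans ?_
  · simp only [plog, pertH]
    refine congrArg Real.log (Finset.sum_congr rfl fun σ _ => congrArg Real.exp ?_)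
    ring
  · rw [Real.sqrt_le_iff]
    have hA : 0 ≤ A := Nat.cast_nonneg _
    exact ⟨by positivity, by nlinarith [mul_nonneg (sq_nonneg s) (sq_nonneg A)]⟩

/-- The flip average is bounded by an affine function of the fields. -/
lemma abs_favg_le {C0 : ℝ} {U : Fin N → Fin N → ℝ} (hU : (Matrix.of U)ᵀ * Matrix.of U = 1)
    (hc : |clog dl lbl U| ≤ C0) (hs : 0 ≤ s) (hy : y ∈ PBox s)
    (g : EuclideanSpace ℝ (GIdx Unit P N)) :
    |favg dl n lbl f s y g U| ≤
      C0 + 2 * s ^ 2 + ‖g‖ * (2 * s * (Fintype.card (CIdx Unit P) : ℝ)) := by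
  set b := C0 + 2 * s ^ 2 + ‖g‖ * (2 * s * (Fintype.card (CIdx Unit P) : ℝ))
  have hp : ∀ ε : Fin N → Bool, |plog dl n lbl f s y U (tflip ε g)| ≤ b := fun ε => by
    have h := _root_.abs_le.1
      (abs_plog_sub_clog (dl := dl) (n := n) (lbl := lbl) (f := f) hU hs hy (tflip ε g))
    rw [(tflip ε).norm_map] at h
    have h2 := _root_.abs_le.1 hc
    exact _root_.abs_le.2 ⟨by linarith, by linarith⟩
  unfold favg
  rw [abs_mul, abs_inv, abs_pow, abs_two]
  refine (mul_le_mul_of_nonneg_left ((Finset.abs_sum_le_sum_abs _ _).trans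
    (Finset.sum_le_sum fun ε _ => hp ε)) (by positivity)).trans_eq ?_
  simp

lemma measurable_favg :
    Measurable fun z : (Fin N → Fin N → ℝ) × EuclideanSpace ℝ (GIdx Unit P N) =>
      favg dl n lbl f s y z.2 z.1 :=
  (Finset.measurable_fun_sum _ fun ε _ =>
    (measurable_plog (dl := dl) (n := n) (lbl := lbl) (f := f) (s := s) (y := y)).comp
      (f := fun z : (Fin N → Fin N → ℝ) × EuclideanSpace ℝ (GIdx Unit P N) => (z.1, tflip ε z.2))
      (measurable_fst.prodMk ((tflip ε).continuous.measurable.comp measurable_snd))).const_mul _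

/-- The flip average has the mean of the log-sum. -/
lemma integral_favg {U : Fin N → Fin N → ℝ} (hU : (Matrix.of U)ᵀ * Matrix.of U = 1) (hs : 0 ≤ s)
    (hy : y ∈ PBox s) :
    ∫ g, favg dl n lbl f s y g U ∂stdGaussian _ = ∫ g, plog dl n lbl f s y U g ∂stdGaussian _ := by
  have hgi : ∀ ε, Integrable (fun g => plog dl n lbl f s y U (tflip ε g)) (stdGaussian _) := fun ε => by
    refine ((integrable_const (|clog dl lbl U| + 2 * s ^ 2)).add
      (((IsGaussian.integrable_id (μ := stdGaussian (EuclideanSpace ℝ (GIdx Unit P N)))).norm).mul_const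
        (2 * s * (Fintype.card (CIdx Unit P) : ℝ)))).mono'
      ((measurable_plog_right U).comp (tflip ε).continuous.measurable).aestronglyMeasurable
      (Filter.Eventually.of_forall fun g => ?_)
    have h := _root_.abs_le.1
      (abs_plog_sub_clog (dl := dl) (n := n) (lbl := lbl) (f := f) hU hs hy (tflip ε g))
    rw [(tflip ε).norm_map] at h
    simp only [Real.norm_eq_abs, Pi.add_apply, id]
    exact _root_.abs_le.2 ⟨by linarith [neg_abs_le (clog dl lbl U)],
      by linarith [le_abs_self (clog dl lbl U)]⟩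
  unfold favg
  rw [integral_const_mul, integral_finsetSum _ fun ε _ => hgi ε]
  simp only [fun ε => integral_tflip ε (measurable_plog_right (dl := dl) (n := n) (lbl := lbl) (f := f)
    (s := s) (y := y) U).aestronglyMeasurable, Finset.sum_const, Finset.card_univ, nsmul_eq_mul]
  simp

/-- The mean of the largest gradient, averaged over flips. -/
lemma integral_gmax_avg_le {ν : Measure (Fin N → Fin N → ℝ)} (hν : OrthInvLaw N ν) (hs : 0 ≤ s)
    (hy : y ∈ PBox s) :
    Integrable (fun z : (Fin N → Fin N → ℝ) × EuclideanSpace ℝ (GIdx Unit P N) =>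
        ((2 : ℝ) ^ N)⁻¹ * ∑ ε : Fin N → Bool, gmax n lbl f y z.1 (tflip ε z.2)) (ν.prod (stdGaussian _)) ∧
      ∫ z, (((2 : ℝ) ^ N)⁻¹ * ∑ ε : Fin N → Bool, gmax n lbl f y z.1 (tflip ε z.2))
        ∂ν.prod (stdGaussian (EuclideanSpace ℝ (GIdx Unit P N))) ≤ 8 * gcon P s ^ 2 * N := by
  have := hν.prob
  set γ := stdGaussian (EuclideanSpace ℝ (GIdx Unit P N))
  set L := gcon P s
  have hn2 : Integrable (fun g : EuclideanSpace ℝ (GIdx Unit P N) => ‖g‖ ^ 2) γ :=
    (IsGaussian.memLp_id γ 2 (by simp)).norm.integrable_sq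
  have horth : ∀ᵐ z ∂ν.prod γ, (Matrix.of z.1)ᵀ * Matrix.of z.1 = 1 :=
    Measure.quasiMeasurePreserving_fst.ae hν.orth
  set R := fun z : (Fin N → Fin N → ℝ) × EuclideanSpace ℝ (GIdx Unit P N) =>
    ((2 : ℝ) ^ N)⁻¹ * ∑ ε : Fin N → Bool, gmax n lbl f y z.1 (tflip ε z.2) with hR
  have hRc : Continuous R := continuous_const.mul (continuous_finsetSum _ fun ε _ =>
    (continuous_gmax (n := n) (lbl := lbl) (f := f) (y := y)).comp
      (f := fun z : (Fin N → Fin N → ℝ) × EuclideanSpace ℝ (GIdx Unit P N) => (z.1, tflip ε z.2))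
      (continuous_fst.prodMk ((tflip ε).continuous.comp continuous_snd)))
  have hRi : Integrable R (ν.prod γ) :=
    ((hn2.const_mul (L ^ 2)).comp_snd ν).mono' hRc.aestronglyMeasurable (horth.mono fun z hz => by
      simp only [R, Real.norm_eq_abs]
      rw [abs_mul, abs_inv, abs_pow, abs_two]
      refine (mul_le_mul_of_nonneg_left ((Finset.abs_sum_le_sum_abs _ _).trans (Finset.sum_le_sum fun ε _ =>
        (gmax_le hy hz _).trans_eq (by rw [(tflip ε).norm_map]))) (by positivity)).trans_eq ?_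
      simp [L])
  refine ⟨hRi, ?_⟩
  rw [integral_prod _ hRi]
  refine (integral_mono_ae hRi.integral_prod_left (integrable_const (8 * L ^ 2 * N))
    (hν.orth.mono fun U hU => ?_)).trans_eq (by simp)
  have hgi : ∀ ε, Integrable (fun g => gmax n lbl f y U (tflip ε g)) γ := fun ε =>
    (hn2.const_mul (L ^ 2)).mono'
      ((continuous_gmax_right U).comp (tflip ε).continuous).aestronglyMeasurable
      (Filter.Eventually.of_forall fun g => by
        simpa [L, (tflip ε).norm_map] using gmax_le (n := n) (lbl := lbl) (f := f) hy hU (tflip ε g))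
  simp only [R]
  rw [integral_const_mul, integral_finsetSum _ fun ε _ => hgi ε]
  refine (mul_le_mul_of_nonneg_left (Finset.sum_le_sum fun ε _ => (?_ : _ ≤ 8 * L ^ 2 * N))
    (by positivity)).trans_eq (by simp)
  rw [integral_tflip ε (F := fun g => gmax n lbl f y U g) (continuous_gmax_right U).aestronglyMeasurable]
  exact integral_gmax_le hs hy hU

/-- The Poincare inequality for the flip average at fixed fields. -/
lemma favg_var {ν : Measure (Fin N → Fin N → ℝ)} (hν : OrthInvLaw N ν) (hΛ : ∀ j, |dl j| ≤ Λ)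
    (hs : 0 ≤ s) (hy : y ∈ PBox s) (g : EuclideanSpace ℝ (GIdx Unit P N))
    (hg : Integrable (fun U => ((2 : ℝ) ^ N)⁻¹ * ∑ ε : Fin N → Bool, gmax n lbl f y U (tflip ε g)) ν) :
    ∫ U, (favg dl n lbl f s y g U - ∫ V, favg dl n lbl f s y g V ∂ν) ^ 2 ∂ν ≤
      Real.pi ^ 2 / (2 * (N : ℝ)) * (8 * Λ ^ 2 * (N : ℝ) ^ 2 + 256 * s ^ 4 +
        16 * ∫ U, (((2 : ℝ) ^ N)⁻¹ * ∑ ε : Fin N → Bool, gmax n lbl f y U (tflip ε g)) ∂ν) := by
  have := hν.prob
  have hso : Orth.StabLaw ∅ ν := Orth.OrthInvLaw.stabLaw hν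
  have h := Orth.variance_le hso (contDiff_favg (dl := dl) (n := n) (lbl := lbl) (f := f) (s := s)
    (y := y) g)
  simp only [favg_flip, sub_self, ne_eq, OfNat.ofNat_ne_zero, not_false_eq_true, zero_pow,
    integral_zero, Finset.sum_const_zero, mul_zero, add_zero] at h
  refine h.trans (mul_le_mul_of_nonneg_left ?_ (by positivity))
  set K0 := 8 * Λ ^ 2 * (N : ℝ) ^ 2 + 256 * s ^ 4
  have hi : ∀ a b, Integrable (fun U => Orth.dl (favg dl n lbl f s y g) a b U ^ 2) ν := fun a b =>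
    hso.integrable ((Orth.continuous_dl (contDiff_favg g) a b).pow 2)
  calc ∑ a, ∑ b, ∫ U, Orth.dl (favg dl n lbl f s y g) a b U ^ 2 ∂ν
      = ∫ U, ∑ a, ∑ b, Orth.dl (favg dl n lbl f s y g) a b U ^ 2 ∂ν := by
        rw [integral_finsetSum _ fun a _ => integrable_finsetSum _ fun b _ => hi a b]
        exact Finset.sum_congr rfl fun a _ => (integral_finsetSum _ fun b _ => hi a b).symm
    _ ≤ ∫ U, (K0 + 16 * (((2 : ℝ) ^ N)⁻¹ * ∑ ε : Fin N → Bool, gmax n lbl f y U (tflip ε g))) ∂ν :=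
        integral_mono_ae (integrable_finsetSum _ fun a _ => integrable_finsetSum _ fun b _ => hi a b)
          ((integrable_const K0).add (hg.const_mul 16))
          (hν.orth.mono fun U hU => sum_sq_dl_favg_le hΛ hs hy hU g)
    _ = _ := by rw [integral_add (integrable_const _) (hg.const_mul 16), integral_const,
          probReal_univ, one_smul, integral_const_mul]

/-- The mean over the fields is concentrated in the array. -/
lemma haar_dev {ν : Measure (Fin N → Fin N → ℝ)} (hν : OrthInvLaw N ν) (hN : 1 ≤ N)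
    (hΛ : ∀ j, |dl j| ≤ Λ) (hs : 0 ≤ s) (hy : y ∈ PBox s) :
    ∫ U, |(∫ g, plog dl n lbl f s y U g ∂stdGaussian _) -
        ∫ U', (∫ g, plog dl n lbl f s y U' g ∂stdGaussian _) ∂ν| ∂ν ≤
      Real.sqrt (Real.pi ^ 2 / (2 * (N : ℝ)) *
        (8 * Λ ^ 2 * (N : ℝ) ^ 2 + 256 * s ^ 4 + 16 * (8 * gcon P s ^ 2 * N))) := by
  have := hν.prob
  set γ := stdGaussian (EuclideanSpace ℝ (GIdx Unit P N))
  set F := fun (z : (Fin N → Fin N → ℝ) × EuclideanSpace ℝ (GIdx Unit P N)) =>
    favg dl n lbl f s y z.2 z.1 with hF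
  obtain ⟨C0, hC0⟩ := Orth.isCompact_cube.exists_bound_of_continuousOn (s := Orth.cube N)
    (f := clog dl lbl) continuous_clog.continuousOn
  set k0 := 2 * s * (Fintype.card (CIdx Unit P) : ℝ)
  set C1 := C0 + 2 * s ^ 2
  have hFb : ∀ U, (Matrix.of U)ᵀ * Matrix.of U = 1 → ∀ g, |F (U, g)| ≤ C1 + ‖g‖ * k0 := fun U hU g => by
    have hf : Orth.Fix ∅ U := ⟨hU, fun i hi => absurd hi (Finset.notMem_empty i)⟩
    exact abs_favg_le hU (by simpa using hC0 U hf.mem_cube) hs hy g
  have hFm : Measurable F := measurable_favg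
  have horth : ∀ᵐ z ∂ν.prod γ, (Matrix.of z.1)ᵀ * Matrix.of z.1 = 1 :=
    Measure.quasiMeasurePreserving_fst.ae hν.orth
  have hn2 : Integrable (fun g : EuclideanSpace ℝ (GIdx Unit P N) => ‖g‖ ^ 2) γ :=
    (IsGaussian.memLp_id γ 2 (by simp)).norm.integrable_sq
  have hn1 : Integrable (fun g : EuclideanSpace ℝ (GIdx Unit P N) => ‖g‖) γ :=
    (IsGaussian.integrable_id (μ := γ)).norm
  have hFi : Integrable F (ν.prod γ) :=
    ((integrable_const C1).add ((hn1.mul_const k0).comp_snd ν)).mono' hFm.aestronglyMeasurable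
      (horth.mono fun z hz => by simpa using hFb z.1 hz z.2)
  set G0 := fun g => ∫ U, F (U, g) ∂ν
  have hG0m : Measurable G0 := (hFm.stronglyMeasurable.integral_prod_left' (μ := ν)).measurable
  have hG0b : ∀ g, |G0 g| ≤ C1 + ‖g‖ * k0 := fun g => by
    rw [← Real.norm_eq_abs]
    exact (norm_integral_le_of_norm_le_const (C := C1 + ‖g‖ * k0) (hν.orth.mono fun U hU => by
      simpa using hFb U hU g)).trans_eq (by simp)
  set D := fun z : (Fin N → Fin N → ℝ) × EuclideanSpace ℝ (GIdx Unit P N) => F z - G0 z.2 with hD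
  have hDi : Integrable (fun z => D z ^ 2) (ν.prod γ) := by
    refine (((integrable_const (8 * C1 ^ 2)).add ((hn2.const_mul (8 * k0 ^ 2)).comp_snd ν))).mono'
      ((hFm.sub (hG0m.comp measurable_snd)).pow_const 2).aestronglyMeasurable
      (horth.mono fun z hz => ?_)
    have h1 := _root_.abs_le.1 (hFb z.1 hz z.2)
    have h2 := _root_.abs_le.1 (hG0b z.2)
    simp only [Real.norm_eq_abs, Pi.add_apply, D]
    rw [abs_of_nonneg (sq_nonneg (F z - G0 z.2))]
    have h3 : |F z - G0 z.2| ≤ 2 * (C1 + ‖z.2‖ * k0) := _root_.abs_le.2 ⟨by linarith, by linarith⟩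
    have h4 := pow_le_pow_left₀ (abs_nonneg _) h3 2
    rw [sq_abs] at h4
    nlinarith [sq_nonneg (C1 - ‖z.2‖ * k0)]
  obtain ⟨hRi, hRv⟩ := integral_gmax_avg_le (n := n) (lbl := lbl) (f := f) hν hs hy
  set R := fun z : (Fin N → Fin N → ℝ) × EuclideanSpace ℝ (GIdx Unit P N) =>
    ((2 : ℝ) ^ N)⁻¹ * ∑ ε : Fin N → Bool, gmax n lbl f y z.1 (tflip ε z.2) with hR
  set K0 := 8 * Λ ^ 2 * (N : ℝ) ^ 2 + 256 * s ^ 4
  have hvar : ∀ᵐ g ∂γ, ∫ U, D (U, g) ^ 2 ∂ν ≤
      Real.pi ^ 2 / (2 * (N : ℝ)) * (K0 + 16 * ∫ U, R (U, g) ∂ν) :=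
    hRi.prod_left_ae.mono fun g hg => favg_var hν hΛ hs hy g hg
  have hDv : ∫ z, D z ^ 2 ∂ν.prod γ ≤
      Real.pi ^ 2 / (2 * (N : ℝ)) * (K0 + 16 * (8 * gcon P s ^ 2 * N)) := by
    have hi : Integrable (fun g => K0 + 16 * ∫ U, R (U, g) ∂ν) γ :=
      (integrable_const K0).add (hRi.integral_prod_right.const_mul 16)
    rw [integral_prod_symm _ hDi]
    refine (integral_mono_ae hDi.integral_prod_right (hi.const_mul _) hvar).trans ?_
    rw [integral_const_mul, integral_add (integrable_const _) (hRi.integral_prod_right.const_mul 16),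
      integral_const_mul, ← integral_prod_symm _ hRi, integral_const, probReal_univ, one_smul]
    exact mul_le_mul_of_nonneg_left (by linarith) (by positivity)
  set m := fun U => ∫ g, plog dl n lbl f s y U g ∂γ with hm
  have hpi : Integrable (fun z => plog dl n lbl f s y z.1 z.2) (ν.prod γ) := integrable_plog hν hs hy
  have hmi : Integrable m ν := hpi.integral_prod_left
  have hmF : ∀ᵐ U ∂ν, m U = ∫ g, F (U, g) ∂γ := hν.orth.mono fun U hU => (integral_favg hU hs hy).symm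
  have hF0 : ∫ g, G0 g ∂γ = ∫ U, m U ∂ν := by
    rw [integral_congr_ae hmF, ← integral_prod _ hFi, integral_prod_symm _ hFi]
  have hcen : ∀ᵐ U ∂ν, (m U - ∫ U', m U' ∂ν) ^ 2 ≤ ∫ g, D (U, g) ^ 2 ∂γ := by
    filter_upwards [hmF, hFi.prod_right_ae, hDi.prod_right_ae] with U h1 h2 h3
    rw [h1, ← hF0, ← integral_sub h2 hFi.integral_prod_right]
    exact Orth.sq_integral_le (h2.sub hFi.integral_prod_right) h3
  have hsqi : Integrable (fun U => (m U - ∫ U', m U' ∂ν) ^ 2) ν :=
    hDi.integral_prod_left.mono' (((hmi.sub (integrable_const _)).aestronglyMeasurable).pow 2)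
      (hcen.mono fun U h => by rwa [Real.norm_eq_abs, abs_of_nonneg (sq_nonneg _)])
  refine Orth.mad_le_sqrt (hmi.sub (integrable_const _)) hsqi ?_
  exact (integral_mono_ae hsqi hDi.integral_prod_left hcen).trans
    (by rw [← integral_prod _ hDi]; exact hDv)

/-- Arithmetic of the constant. -/
lemma dev_sqrt_le {A Q s r Λ : ℝ} (hA : 0 ≤ A) (hQ : 0 ≤ Q) (hs : 0 ≤ s) (hr : 0 < r) :
    Real.sqrt (Real.pi ^ 2 / (2 * r ^ 2) * (8 * Λ ^ 2 * (r ^ 2) ^ 2 + 256 * s ^ 4 +
        16 * (8 * (2 * s * A * Q) ^ 2 * r ^ 2))) ≤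
      (7 * |Λ| + 36 + 51 * A * Q) * (r + s + s ^ 2 / r) := by
  rw [Real.sqrt_le_iff]
  refine ⟨by positivity, ?_⟩
  have hpi2 : Real.pi ^ 2 ≤ 10 := by nlinarith [Real.pi_lt_d2, Real.pi_pos]
  set k1 := 7 * |Λ|
  set k3 := 51 * A * Q
  have hk1 : 0 ≤ k1 := by positivity
  have hk3 : 0 ≤ k3 := by positivity
  have e1 : Real.pi ^ 2 / (2 * r ^ 2) * (8 * Λ ^ 2 * (r ^ 2) ^ 2 + 256 * s ^ 4 +
      16 * (8 * (2 * s * A * Q) ^ 2 * r ^ 2)) ≤ 10 / (2 * r ^ 2) * (8 * Λ ^ 2 * (r ^ 2) ^ 2 +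
      256 * s ^ 4 + 16 * (8 * (2 * s * A * Q) ^ 2 * r ^ 2)) :=
    mul_le_mul_of_nonneg_right (div_le_div_of_nonneg_right hpi2 (by positivity)) (by positivity)
  refine e1.trans ?_
  rw [show 10 / (2 * r ^ 2) * (8 * Λ ^ 2 * (r ^ 2) ^ 2 + 256 * s ^ 4 +
      16 * (8 * (2 * s * A * Q) ^ 2 * r ^ 2)) =
    40 * (|Λ| * r) ^ 2 + 1280 * (s ^ 2 / r) ^ 2 + 2560 * (A * Q * s) ^ 2 by
      rw [mul_pow |Λ|, sq_abs]
      field_simp
      ring]
  have hx : 0 ≤ s ^ 2 / r := by positivity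
  have h1 : k1 * r + 36 * (s ^ 2 / r) + k3 * s ≤ (k1 + 36 + k3) * (r + s + s ^ 2 / r) := by
    nlinarith [mul_nonneg hk1 hs, mul_nonneg hk1 hx, mul_nonneg hk3 hr.le, mul_nonneg hk3 hx]
  refine le_trans ?_ (pow_le_pow_left₀ (by positivity) h1 2)
  simp only [k1, k3]
  nlinarith [mul_nonneg (mul_nonneg (abs_nonneg Λ) hr.le) hx,
    mul_nonneg (mul_nonneg (abs_nonneg Λ) hr.le) (mul_nonneg (mul_nonneg hA hQ) hs),
    mul_nonneg hx (mul_nonneg (mul_nonneg hA hQ) hs), sq_nonneg (|Λ| * r), sq_nonneg (s ^ 2 / r),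
    sq_nonneg (A * Q * s)]

theorem pmass_dev_bound (P : ℕ) (Λ : ℝ) :
    ∃ C : ℝ, ∀ (N n : ℕ) (dl : κ → ℝ) (lbl : Fin N → κ) (f : κ) (s : ℝ) (y : CIdx Unit P → ℝ)
      (ν : Measure (Fin N → Fin N → ℝ)), OrthInvLaw N ν → N ≤ n → 1 ≤ N → (∀ j, |dl j| ≤ Λ) →
      0 ≤ s → y ∈ PBox s →
      pmean ν (fun U g => |Real.log (∑ σ, Real.exp (pertH dl n lbl f s y U g σ)) -
        pmass dl n lbl f s y ν|) ≤ C * (Real.sqrt N + s + s ^ 2 / Real.sqrt N) := by
  set A : ℝ := (Fintype.card (CIdx Unit P) : ℝ) with hA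
  refine ⟨7 * |Λ| + 36 + 56 * A * ((P : ℝ) + 1),
    fun N n dl lbl f s y ν hν _ hN hΛ hs hy => ?_⟩
  have := hν.prob
  set γ := stdGaussian (EuclideanSpace ℝ (GIdx Unit P N))
  set m := fun U => ∫ g, plog dl n lbl f s y U g ∂γ with hm
  have hpi : Integrable (fun z => plog dl n lbl f s y z.1 z.2) (ν.prod γ) := integrable_plog hν hs hy
  have hmi : Integrable m ν := hpi.integral_prod_left
  have hmass : pmass dl n lbl f s y ν = ∫ U, m U ∂ν := integral_prod _ hpi
  have hA0 : 0 ≤ A := Nat.cast_nonneg _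
  have hP : (1 : ℝ) ≤ (P : ℝ) + 1 := by linarith [(Nat.cast_nonneg P : (0 : ℝ) ≤ P)]
  have hN0 : (0 : ℝ) < N := by exact_mod_cast hN
  have h2 : ∫ U, |m U - ∫ U', m U' ∂ν| ∂ν ≤
      (7 * |Λ| + 36 + 51 * A * ((P : ℝ) + 1)) * (Real.sqrt N + s + s ^ 2 / Real.sqrt N) := by
    refine (haar_dev hν hN hΛ hs hy).trans ?_
    have h := dev_sqrt_le (Λ := Λ) hA0 (zero_le_one.trans hP) hs (Real.sqrt_pos.2 hN0)
    rw [Real.sq_sqrt hN0.le] at h
    exact h
  have htri : pmean ν (fun U g => |Real.log (∑ σ, Real.exp (pertH dl n lbl f s y U g σ)) -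
      pmass dl n lbl f s y ν|) ≤ 5 * s * A + ∫ U, |m U - ∫ U', m U' ∂ν| ∂ν := by
    show ∫ z, |plog dl n lbl f s y z.1 z.2 - pmass dl n lbl f s y ν| ∂ν.prod γ ≤ _
    have hi1 : Integrable (fun z => |plog dl n lbl f s y z.1 z.2 - m z.1|) (ν.prod γ) :=
      (hpi.sub (hmi.comp_fst γ)).abs
    have hi2 : Integrable (fun z => |m z.1 - ∫ U', m U' ∂ν|) (ν.prod γ) :=
      ((hmi.sub (integrable_const _)).abs).comp_fst γ
    rw [hmass]
    refine (integral_mono (hpi.sub (integrable_const _)).abs (hi1.add hi2) fun z =>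
      abs_sub_le _ (m z.1) _).trans ?_
    rw [Pi.add_def, integral_add hi1 hi2, integral_fun_fst (fun U => |m U - ∫ U', m U' ∂ν|), probReal_univ,
      one_smul, integral_prod _ hi1]
    refine add_le_add ?_ le_rfl
    refine (integral_mono_ae hi1.integral_prod_left (integrable_const (5 * s * A))
      (hν.orth.mono fun U hU => gauss_dev hU hs hy)).trans_eq (by simp)
  refine htri.trans ((add_le_add le_rfl h2).trans ?_)
  have h0 : 0 ≤ s ^ 2 / Real.sqrt N := by positivity
  nlinarith [mul_le_mul_of_nonneg_left hP (mul_nonneg hA0 hs), Real.sqrt_nonneg (N : ℝ),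
    mul_nonneg (mul_nonneg hA0 (zero_le_one.trans hP)) (Real.sqrt_nonneg (N : ℝ)),
    mul_nonneg (mul_nonneg hA0 (zero_le_one.trans hP)) h0]

end Vale.Agent.P166F.Low
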