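import Vale.Agent.P166F.Low.Model
import Vale.Agent.P166F.Up.LoopField
import Vale.Agent.P166F.Haar.LogSum
import Vale.Agent.P157.RSB.SphereEntropy

/-!
P166: sizes of the features of the lower bound and two Gaussian maxima.
-/

namespace Vale.Agent.P166F.Low

open MeasureTheory ProbabilityTheory Matrix
open scoped RealInnerProductSpace
open Vale.Agent.P166 (spin)
open Vale.Agent.P166F.Loop2 (mterm mterm_eq mderiv sum_sq_mderiv_le softmax abs_inner_le_softmax
  integrable_softmax integral_softmax_le)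

variable {κ : Type} [DecidableEq κ] {N n P : ℕ} {lbl : Fin N → κ} {f : κ}

lemma coord_eq_proj (U : Fin N → Fin N → ℝ) (σ : Fin N → Bool) (i : Fin N) :
    coord U σ i = Orth.proj (fun j => spin (σ j)) i U := rfl

lemma sum_coord_sq {U : Fin N → Fin N → ℝ} (hU : (Matrix.of U)ᵀ * Matrix.of U = 1)
    (σ : Fin N → Bool) : ∑ i, coord U σ i ^ 2 = (N : ℝ) := by
  simp only [coord_eq_proj, Orth.sum_proj_sq hU]
  simp [spin]

/-- Overlap of two configurations in one class. -/
def clsOv (lbl : Fin N → κ) (e : κ) (U : Fin N → Fin N → ℝ) (σ τ : Fin N → Bool) : ℝ :=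
  ∑ i, if lbl i = e then coord U σ i * coord U τ i else 0

lemma abs_clsOv_le (e : κ) {U : Fin N → Fin N → ℝ} (hU : (Matrix.of U)ᵀ * Matrix.of U = 1)
    (σ τ : Fin N → Bool) : |clsOv lbl e U σ τ| ≤ N := by
  refine (Finset.abs_sum_le_sum_abs _ _).trans ((Finset.sum_le_sum fun i _ =>
    (?_ : _ ≤ (coord U σ i ^ 2 + coord U τ i ^ 2) / 2)).trans_eq ?_)
  · split_ifs
    · rw [abs_mul]
      nlinarith [sq_nonneg (|coord U σ i| - |coord U τ i|), sq_abs (coord U σ i), sq_abs (coord U τ i)]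
    · rw [abs_zero]
      positivity
  · rw [← Finset.sum_div, Finset.sum_add_distrib, sum_coord_sq hU, sum_coord_sq hU]
    ring

lemma norm_featV_sq_clsOv (n : ℕ) (lbl : Fin N → κ) (f : κ) (U : Fin N → Fin N → ℝ) (σ : Fin N → Bool) :
    ‖featV n lbl f U σ‖ ^ 2 = clsOv lbl f U σ σ / (max n N : ℕ) := by
  rw [EuclideanSpace.real_norm_sq_eq, clsOv, Finset.sum_div]
  refine Finset.sum_congr rfl fun i _ => ?_
  simp only [featV]
  split_ifs
  · rw [div_pow, Real.sq_sqrt (Nat.cast_nonneg _), sq]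
  · simp

lemma norm_featV_le_one {U : Fin N → Fin N → ℝ} (hU : (Matrix.of U)ᵀ * Matrix.of U = 1)
    (σ : Fin N → Bool) : ‖featV n lbl f U σ‖ ≤ 1 := by
  rw [← sq_le_one_iff₀ (norm_nonneg _), norm_featV_sq_clsOv]
  exact div_le_one_of_le₀ (((le_abs_self _).trans (abs_clsOv_le f hU σ σ)).trans
    (by exact_mod_cast le_max_right n N)) (Nat.cast_nonneg _)

/-- The exponents of a monomial. -/
abbrev expo1 (e : Mon Unit P) : Unit → ℕ := fun j => (e.1 j : ℕ)

lemma expo1_le (e : Mon Unit P) : (∑ j, (expo1 e j : ℝ)) ≤ (P : ℝ) + 1 := by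
  rw [Fintype.sum_unique]
  have := (e.1 default).isLt
  exact_mod_cast (show expo1 e default ≤ P + 1 by simp only [expo1]; omega)

lemma pvec_apply (y : CIdx Unit P → ℝ) (v : EuclideanSpace ℝ (Fin N)) (x : GIdx Unit P N) :
    pvec y v x = y (Sum.inl x.1) * mterm (expo1 x.1) (fun _ => v) x.2 := rfl

lemma sum_sq_mterm {J : Type} [Fintype J] [DecidableEq J] {D : ℕ} (e : J → ℕ)
    (v : J → EuclideanSpace ℝ (Fin D)) :
    ∑ idx : (j : J) → Fin (e j) → Fin D, mterm e v idx ^ 2 = ∏ z : Loop2.Slot e, ‖v z.1‖ ^ 2 := by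
  simp only [mterm_eq, ← Finset.prod_pow]
  rw [← (Equiv.piCurry fun (j : J) (_ : Fin (e j)) => Fin D).sum_comp]
  change ∑ g : Loop2.Slot e → Fin D, ∏ z, v z.1 (g z) ^ 2 = _
  rw [← Fintype.prod_sum (fun (z : Loop2.Slot e) d => v z.1 d ^ 2)]
  simp only [← EuclideanSpace.real_norm_sq_eq]

lemma norm_pvec_le {y : CIdx Unit P → ℝ} {S : ℝ} (hy : ∀ i, |y i| ≤ S)
    {v : EuclideanSpace ℝ (Fin N)} (hv : ‖v‖ ≤ 1) :
    ‖pvec y v‖ ≤ S * (Fintype.card (CIdx Unit P) : ℝ) := by
  have hS : 0 ≤ S := (abs_nonneg _).trans (hy (Sum.inr ()))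
  set A : ℝ := (Fintype.card (CIdx Unit P) : ℝ)
  have hA : 1 ≤ A := by
    simp only [A]
    exact_mod_cast Fintype.card_pos_iff.2 ⟨(Sum.inr () : CIdx Unit P)⟩
  have hcard : (Fintype.card (Mon Unit P) : ℝ) ≤ A := by
    simp only [A]
    exact_mod_cast Fintype.card_le_of_injective (Sum.inl : Mon Unit P → CIdx Unit P) Sum.inl_injective
  rw [← sq_le_sq₀ (norm_nonneg _) (by positivity), EuclideanSpace.real_norm_sq_eq]
  simp only [pvec_apply, mul_pow, Fintype.sum_sigma, ← Finset.mul_sum, sum_sq_mterm]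
  calc ∑ e : Mon Unit P, y (Sum.inl e) ^ 2 * ∏ _z : Loop2.Slot (expo1 e), ‖v‖ ^ 2
      ≤ ∑ _e : Mon Unit P, S ^ 2 * 1 := Finset.sum_le_sum fun e _ =>
        mul_le_mul (sq_le_sq' (abs_le.1 (hy _)).1 (abs_le.1 (hy _)).2)
          (Finset.prod_le_one (fun _ _ => sq_nonneg _) fun _ _ => pow_le_one₀ (norm_nonneg _) hv)
          (Finset.prod_nonneg fun _ _ => sq_nonneg _) (sq_nonneg S)
    _ ≤ A * S ^ 2 := by
        rw [Finset.sum_const, nsmul_eq_mul, Finset.card_univ, mul_one]
        exact mul_le_mul_of_nonneg_right hcard (sq_nonneg S)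
    _ ≤ S ^ 2 * A ^ 2 := by nlinarith [mul_le_mul_of_nonneg_left (le_self_pow₀ hA two_ne_zero) (sq_nonneg S)]

lemma abs_pbox {s : ℝ} {y : CIdx Unit P → ℝ} (hy : y ∈ PBox s) (i : CIdx Unit P) : |y i| ≤ 2 * s := by
  rw [abs_of_nonneg (hy i).1]
  exact (hy i).2

variable {E : Type} [NormedAddCommGroup E] [InnerProductSpace ℝ E] [FiniteDimensional ℝ E]
  [MeasurableSpace E] [BorelSpace E] {T : Type} [Fintype T] [Nonempty T]

/-- A dominating function for finitely many Gaussian variables. -/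
lemma exists_dom {w : T → E} {M : ℝ} (hw : ∀ p, ‖w p‖ ≤ M) (hN : 1 ≤ N)
    (hT : Real.log (2 * Fintype.card T) ≤ 4 * N) :
    ∃ Φ : E → ℝ, Integrable Φ (stdGaussian E) ∧ (∀ g p, |⟪g, w p⟫| ≤ Φ g) ∧
      ∫ g, Φ g ∂stdGaussian E ≤ 5 * Real.sqrt N * M := by
  obtain ⟨p0⟩ := ‹Nonempty T›
  have hM : 0 ≤ M := (norm_nonneg _).trans (hw p0)
  rcases eq_or_lt_of_le hM with rfl | hM'
  · refine ⟨fun _ => 0, integrable_const _, fun g p => ?_, by simp⟩
    rw [norm_le_zero_iff.1 (hw p), inner_zero_right, abs_zero]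
  set r := Real.sqrt N
  have hr : 0 < r := Real.sqrt_pos.2 (by exact_mod_cast hN)
  have hr2 : r * r = N := Real.mul_self_sqrt (by positivity)
  refine ⟨softmax (r / M) w, integrable_softmax w, fun g p => abs_inner_le_softmax (div_pos hr hM') w g p,
    (integral_softmax_le (div_pos hr hM') hw).trans ?_⟩
  have h1 : Real.log (2 * Fintype.card T) / (r / M) ≤ 4 * r * M := by
    rw [div_le_iff₀ (div_pos hr hM')]
    calc Real.log (2 * Fintype.card T) ≤ 4 * N := hT
      _ = 4 * r * M * (r / M) := by rw [← hr2]; field_simp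
  have h2 : r / M * M ^ 2 / 2 = r * M / 2 := by field_simp
  nlinarith [mul_pos hr hM']

/-- A dominating function for the squared norms of finitely many Gaussian vectors. -/
lemma exists_dom_sq {G : T → E → EuclideanSpace ℝ (Fin N)}
    {ad : T → EuclideanSpace ℝ (Fin N) → E} (hG : ∀ p, Continuous (G p))
    (had : ∀ p g h, ⟪h, G p g⟫ = ⟪g, ad p h⟫)
    {L : ℝ} (hL : 0 ≤ L) (hb : ∀ p h, ‖ad p h‖ ≤ L * ‖h‖) (hT : Fintype.card T ≤ 2 ^ N) :
    ∃ Φ : E → ℝ, Integrable Φ (stdGaussian E) ∧ (∀ g p, ‖G p g‖ ^ 2 ≤ Φ g) ∧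
      ∫ g, Φ g ∂stdGaussian E ≤ 8 * L ^ 2 * N := by
  rcases eq_or_lt_of_le hL with rfl | hL'
  · refine ⟨fun _ => 0, integrable_const _, fun g p => le_of_eq ?_, by simp⟩
    have h := hb p (G p g)
    rw [zero_mul, norm_le_zero_iff] at h
    rw [← real_inner_self_eq_norm_sq, had, h, inner_zero_right]
  set a : ℝ := (Real.sqrt 2 * L)⁻¹ with ha
  have h2 : a ^ 2 = 1 / (2 * L ^ 2) := by
    rw [ha, inv_pow, mul_pow, Real.sq_sqrt two_pos.le, one_div]
  obtain ⟨hq1, hq2⟩ := Vale.Agent.P157.RSB.gauss_quad_vec (N := N) (a := 1 / 4) (k := 1)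
    (by norm_num) 0
  simp only [zero_add, one_smul] at hq1 hq2
  have hexp : ∀ g p, Real.exp (‖G p g‖ ^ 2 / (4 * L ^ 2)) =
      ∫ h, Real.exp ⟪h, a • G p g⟫ ∂stdGaussian (EuclideanSpace ℝ (Fin N)) := fun g p => by
    rw [Vale.Agent.P157.Low.integral_exp_inner, norm_smul, mul_pow, Real.norm_eq_abs, sq_abs, h2]
    congr 1
    field_simp
    ring
  have hone : ∀ p, Integrable (fun g => Real.exp (‖G p g‖ ^ 2 / (4 * L ^ 2))) (stdGaussian E) ∧
      ∫ g, Real.exp (‖G p g‖ ^ 2 / (4 * L ^ 2)) ∂stdGaussian E ≤ Real.sqrt 2 ^ N := by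
    intro p
    have hjm : Continuous fun z : E × EuclideanSpace ℝ (Fin N) => Real.exp ⟪z.2, a • G p z.1⟫ :=
      (continuous_snd.inner (((hG p).comp continuous_fst).const_smul a)).rexp
    have hsl : ∀ h, (fun g => Real.exp ⟪h, a • G p g⟫) = fun g => Real.exp ⟪g, a • ad p h⟫ := fun h =>
      funext fun g => by rw [real_inner_smul_right, real_inner_smul_right, had]
    have hin : ∀ h, ∫ g, Real.exp ⟪h, a • G p g⟫ ∂stdGaussian E ≤ Real.exp (1 / 4 * ‖h‖ ^ 2) := fun h => by
      rw [hsl h, Vale.Agent.P157.Low.integral_exp_inner]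
      refine Real.exp_le_exp.2 ?_
      rw [norm_smul, mul_pow, Real.norm_eq_abs, sq_abs, h2]
      have h3 := pow_le_pow_left₀ (norm_nonneg _) (hb p h) 2
      rw [mul_pow] at h3
      field_simp
      nlinarith
    have hj : Integrable (fun z : E × EuclideanSpace ℝ (Fin N) => Real.exp ⟪z.2, a • G p z.1⟫)
        ((stdGaussian E).prod (stdGaussian _)) := by
      rw [integrable_prod_iff' hjm.aestronglyMeasurable]
      refine ⟨Filter.Eventually.of_forall fun h => ?_, ?_⟩
      · show Integrable (fun g => Real.exp ⟪h, a • G p g⟫) (stdGaussian E)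
        rw [hsl h]
        exact (Vale.Agent.P157.Low.integrable_exp_norm ‖a • ad p h‖).mono' (by fun_prop)
          (Filter.Eventually.of_forall fun g => by
            rw [Real.norm_eq_abs, Real.abs_exp, Real.exp_le_exp, mul_comm]
            exact real_inner_le_norm g _)
      · refine hq1.mono' (hjm.norm.stronglyMeasurable.integral_prod_left').aestronglyMeasurable
          (Filter.Eventually.of_forall fun h => ?_)
        simp only [Real.norm_eq_abs, Real.abs_exp]
        rw [abs_of_nonneg (integral_nonneg fun g => (Real.exp_pos _).le)]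
        exact hin h
    refine ⟨?_, ?_⟩
    · simp only [hexp]
      exact hj.integral_prod_left
    · simp only [hexp]
      rw [integral_integral_swap hj]
      refine (integral_mono hj.integral_prod_right hq1 hin).trans (le_of_eq ?_)
      rw [hq2]
      norm_num
  set S := fun g => ∑ p, Real.exp (‖G p g‖ ^ 2 / (4 * L ^ 2))
  have hS : ∀ g, 0 < S g := fun g => Finset.sum_pos (fun p _ => Real.exp_pos _) Finset.univ_nonempty
  have hSi : Integrable S (stdGaussian E) := integrable_finsetSum _ fun p _ => (hone p).1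
  set A : ℝ := (Fintype.card T : ℝ) * Real.sqrt 2 ^ N
  have hA1 : 1 ≤ A := by
    have h1 : (1 : ℝ) ≤ Fintype.card T := by exact_mod_cast Fintype.card_pos
    have h2' : (1 : ℝ) ≤ Real.sqrt 2 ^ N := one_le_pow₀ (Real.one_le_sqrt.2 one_le_two)
    simp only [A]
    nlinarith
  have hSA : ∫ g, S g ∂stdGaussian E ≤ A := by
    simp only [S]
    rw [integral_finsetSum _ fun p _ => (hone p).1]
    exact (Finset.sum_le_sum fun p _ => (hone p).2).trans_eq (by simp [A])
  refine ⟨fun g => 4 * L ^ 2 * (Real.log A + (S g / A - 1)), ?_, fun g p => ?_, ?_⟩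
  · exact ((integrable_const (Real.log A)).add ((hSi.div_const A).sub (integrable_const 1))).const_mul _
  · have h1 : Real.exp (‖G p g‖ ^ 2 / (4 * L ^ 2)) ≤ S g :=
      Finset.single_le_sum (f := fun p => Real.exp (‖G p g‖ ^ 2 / (4 * L ^ 2)))
        (fun p _ => (Real.exp_pos _).le) (Finset.mem_univ p)
    have h3 := Real.log_le_log (Real.exp_pos _) h1
    rw [Real.log_exp] at h3
    have h4 := Real.log_le_sub_one_of_pos (div_pos (hS g) (zero_lt_one.trans_le hA1))
    rw [Real.log_div (hS g).ne' (zero_lt_one.trans_le hA1).ne'] at h4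
    rw [div_le_iff₀ (by positivity)] at h3
    nlinarith [sq_nonneg L]
  · have hi : Integrable (fun g => S g / A - 1) (stdGaussian E) :=
      (hSi.div_const A).sub (integrable_const 1)
    rw [integral_const_mul, integral_add (integrable_const _) hi,
      integral_sub (hSi.div_const A) (integrable_const 1), integral_div,
      integral_const, probReal_univ, one_smul, integral_const, probReal_univ, one_smul]
    have h1 : (∫ g, S g ∂stdGaussian E) / A ≤ 1 := (div_le_one (zero_lt_one.trans_le hA1)).2 hSA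
    have hT' : (Fintype.card T : ℝ) ≤ 2 ^ N := by exact_mod_cast hT
    have hc : (0 : ℝ) < Fintype.card T := by exact_mod_cast Fintype.card_pos
    have h3 : Real.log A ≤ 2 * N := by
      have e1 : Real.log A = Real.log (Fintype.card T : ℝ) + N * (Real.log 2 / 2) := by
        simp only [A]
        rw [Real.log_mul hc.ne' (by positivity), Real.log_pow, Real.log_sqrt two_pos.le]
      have h5 := Real.log_le_log hc hT'
      rw [Real.log_pow] at h5
      nlinarith [Real.log_two_lt_d9, Real.log_two_gt_d9, (Nat.cast_nonneg N : (0 : ℝ) ≤ N)]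
    nlinarith [sq_nonneg L]

end Vale.Agent.P166F.Low
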