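import Vale.Agent.P166F.Low.Rot.Basic

/-!
P166: the perturbation changes the mean log-sum by at most the order of the squared scale.
-/

namespace Vale.Agent.P166F.Low

open MeasureTheory ProbabilityTheory Matrix
open scoped RealInnerProductSpace
open Vale.Agent.P166N.Spectrum (OrthInvLaw)

variable {κ : Type} [DecidableEq κ] {N n P : ℕ} {dl : κ → ℝ} {lbl : Fin N → κ} {f : κ} {s : ℝ}
  {y : CIdx Unit P → ℝ}

lemma continuous_coordU (σ : Fin N → Bool) (i : Fin N) :
    Continuous fun U : Fin N → Fin N → ℝ => coord U σ i := by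
  unfold coord
  fun_prop

lemma continuous_featU (σ : Fin N → Bool) :
    Continuous fun U : Fin N → Fin N → ℝ => featV n lbl f U σ := by
  refine (PiLp.continuous_toLp 2 _).comp (continuous_pi fun i => ?_)
  split_ifs
  · exact (continuous_coordU σ i).div_const _
  · exact continuous_const

lemma continuous_pertHU (σ : Fin N → Bool) :
    Continuous fun z : (Fin N → Fin N → ℝ) × EuclideanSpace ℝ (GIdx Unit P N) =>
      pertH dl n lbl f s y z.1 z.2 σ := by
  have hv : Continuous fun z : (Fin N → Fin N → ℝ) × EuclideanSpace ℝ (GIdx Unit P N) =>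
      featV n lbl f z.1 σ := (continuous_featU σ).comp continuous_fst
  have hp : Continuous fun v : EuclideanSpace ℝ (Fin N) => pvec y v :=
    (PiLp.continuous_toLp 2 _).comp (continuous_pi fun x => continuous_const.mul
      (continuous_finsetProd _ fun j _ => continuous_finsetProd _ fun t _ => PiLp.continuous_apply 2 _ _))
  refine ((Continuous.div_const ?_ 2).add (continuous_snd.inner (hp.comp hv))).add
    (continuous_const.mul (hv.norm.pow 2))
  exact continuous_finsetSum _ fun i _ =>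
    continuous_const.mul (((continuous_coordU σ i).comp continuous_fst).pow 2)

/-- The log-sum at one point of the disorder. -/
noncomputable def plog (dl : κ → ℝ) (n : ℕ) (lbl : Fin N → κ) (f : κ) (s : ℝ)
    (y : CIdx Unit P → ℝ) (U : Fin N → Fin N → ℝ) (g : EuclideanSpace ℝ (GIdx Unit P N)) : ℝ :=
  Real.log (∑ σ, Real.exp (pertH dl n lbl f s y U g σ))

/-- The unperturbed log-sum. -/
noncomputable def clog (dl : κ → ℝ) (lbl : Fin N → κ) (U : Fin N → Fin N → ℝ) : ℝ :=
  Real.log (∑ σ, Real.exp (clsEnergy dl lbl U σ))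

lemma plog_zero (U : Fin N → Fin N → ℝ) (g : EuclideanSpace ℝ (GIdx Unit P N)) :
    plog dl n lbl f s (0 : CIdx Unit P → ℝ) U g = clog dl lbl U := by
  have e : ∀ σ, pertH dl n lbl f s (0 : CIdx Unit P → ℝ) U g σ = clsEnergy dl lbl U σ := fun σ => by
    have h0 : pvec (0 : CIdx Unit P → ℝ) (featV n lbl f U σ) = 0 := by
      ext x
      simp [pvec]
    simp [pertH, h0]
  simp only [plog, clog, e]

lemma abs_plog_sub_clog {U : Fin N → Fin N → ℝ} (hU : (Matrix.of U)ᵀ * Matrix.of U = 1) (hs : 0 ≤ s)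
    (hy : y ∈ PBox s) (g : EuclideanSpace ℝ (GIdx Unit P N)) :
    |plog dl n lbl f s y U g - clog dl lbl U| ≤
      ‖g‖ * (2 * s * (Fintype.card (CIdx Unit P) : ℝ)) + 2 * s ^ 2 := by
  set D := ‖g‖ * (2 * s * (Fintype.card (CIdx Unit P) : ℝ)) + 2 * s ^ 2
  have hpos : ∀ h : (Fin N → Bool) → ℝ, 0 < ∑ σ, Real.exp (h σ) := fun h =>
    Finset.sum_pos (fun _ _ => Real.exp_pos _) Finset.univ_nonempty
  have hd : ∀ σ, |pertH dl n lbl f s y U g σ - clsEnergy dl lbl U σ| ≤ D := fun σ => by
    have h1 : |⟪g, pvec y (featV n lbl f U σ)⟫| ≤ ‖g‖ * (2 * s * (Fintype.card (CIdx Unit P) : ℝ)) :=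
      (abs_real_inner_le_norm _ _).trans (mul_le_mul_of_nonneg_left
        (norm_pvec_le (abs_pbox hy) (norm_featV_le_one hU σ)) (norm_nonneg _))
    have h2 : |s * y (Sum.inr ()) * ‖featV n lbl f U σ‖ ^ 2| ≤ 2 * s ^ 2 := by
      rw [abs_mul, abs_mul, abs_of_nonneg hs, abs_of_nonneg (sq_nonneg ‖featV n lbl f U σ‖)]
      refine (mul_le_mul (mul_le_mul_of_nonneg_left (abs_pbox hy _) hs)
        (pow_le_one₀ (norm_nonneg _) (norm_featV_le_one hU σ)) (sq_nonneg _) (by positivity)).trans_eq ?_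
      ring
    simp only [pertH, add_assoc, add_sub_cancel_left]
    exact (abs_add_le _ _).trans (add_le_add h1 h2)
  have hle : ∀ h h' : (Fin N → Bool) → ℝ, (∀ σ, h σ ≤ h' σ + D) →
      Real.log (∑ σ, Real.exp (h σ)) ≤ Real.log (∑ σ, Real.exp (h' σ)) + D := fun h h' hh => by
    rw [← Real.log_exp D, ← Real.log_mul (hpos h').ne' (Real.exp_pos D).ne', Finset.sum_mul]
    refine Real.log_le_log (hpos h) (Finset.sum_le_sum fun σ _ => ?_)
    rw [← Real.exp_add]
    exact Real.exp_le_exp.2 (hh σ)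
  have hd' := fun σ => _root_.abs_le.1 (hd σ)
  refine _root_.abs_le.2 ⟨?_, ?_⟩
  · have := hle (clsEnergy dl lbl U) (pertH dl n lbl f s y U g) fun σ => by linarith [(hd' σ).1]
    simp only [plog, clog]
    linarith
  · have := hle (pertH dl n lbl f s y U g) (clsEnergy dl lbl U) fun σ => by linarith [(hd' σ).2]
    simp only [plog, clog]
    linarith

lemma measurable_plog :
    Measurable fun z : (Fin N → Fin N → ℝ) × EuclideanSpace ℝ (GIdx Unit P N) =>
      plog dl n lbl f s y z.1 z.2 :=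
  (Finset.measurable_fun_sum _ fun σ _ => (continuous_pertHU σ).measurable.exp).log

omit [DecidableEq κ] in
lemma continuous_clog : Continuous fun U : Fin N → Fin N → ℝ => clog dl lbl U := by
  refine (continuous_finsetSum _ fun σ _ => ((Continuous.div_const ?_ 2).rexp)).log fun U =>
    (Finset.sum_pos (fun _ _ => Real.exp_pos _) Finset.univ_nonempty).ne'
  exact continuous_finsetSum _ fun i _ => continuous_const.mul ((continuous_coordU σ i).pow 2)

lemma integrable_plog {ν : Measure (Fin N → Fin N → ℝ)} (hν : OrthInvLaw N ν) (hs : 0 ≤ s)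
    (hy : y ∈ PBox s) :
    Integrable (fun z => plog dl n lbl f s y z.1 z.2)
      (ν.prod (stdGaussian (EuclideanSpace ℝ (GIdx Unit P N)))) := by
  have := hν.prob
  have h0 : Integrable (clog dl lbl) ν := (Orth.OrthInvLaw.stabLaw hν).integrable continuous_clog
  refine ((h0.comp_fst (stdGaussian (EuclideanSpace ℝ (GIdx Unit P N)))).norm.add
    ((((IsGaussian.integrable_id (μ := stdGaussian (EuclideanSpace ℝ (GIdx Unit P N)))).norm.comp_snd ν).mul_const
      (2 * s * (Fintype.card (CIdx Unit P) : ℝ))).add (integrable_const (2 * s ^ 2)))).mono'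
    measurable_plog.aestronglyMeasurable ((Measure.quasiMeasurePreserving_fst.ae hν.orth).mono fun z hz => ?_)
  have h := _root_.abs_le.1 (abs_plog_sub_clog (dl := dl) (n := n) (lbl := lbl) (f := f) hz hs hy z.2)
  simp only [Real.norm_eq_abs, id, Pi.add_apply]
  refine _root_.abs_le.2 ⟨?_, ?_⟩ <;>
    linarith [neg_abs_le (clog dl lbl z.1), le_abs_self (clog dl lbl z.1)]

theorem pmass_free_bound (P : ℕ) :
    ∃ C : ℝ, ∀ (N n : ℕ) (dl : κ → ℝ) (lbl : Fin N → κ) (f : κ) (s : ℝ) (y : CIdx Unit P → ℝ)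
      (ν : Measure (Fin N → Fin N → ℝ)), OrthInvLaw N ν → 0 ≤ s → y ∈ PBox s →
      |pmass dl n lbl f s y ν - pmass dl n lbl f s (0 : CIdx Unit P → ℝ) ν| ≤ C * s ^ 2 := by
  refine ⟨2 * (Fintype.card (CIdx Unit P) : ℝ) ^ 2 + 2, fun N n dl lbl f s y ν hν hs hy => ?_⟩
  have := hν.prob
  set A : ℝ := (Fintype.card (CIdx Unit P) : ℝ)
  set γ := stdGaussian (EuclideanSpace ℝ (GIdx Unit P N))
  have h0 : Integrable (clog dl lbl) ν := (Orth.OrthInvLaw.stabLaw hν).integrable continuous_clog
  have hi := integrable_plog (dl := dl) (n := n) (lbl := lbl) (f := f) hν hs hy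
  have hy0 : (0 : CIdx Unit P → ℝ) ∈ PBox s := fun i => ⟨le_rfl, by simpa using by linarith⟩
  show |(∫ z, plog dl n lbl f s y z.1 z.2 ∂ν.prod γ) -
    ∫ z, plog dl n lbl f s (0 : CIdx Unit P → ℝ) z.1 z.2 ∂ν.prod γ| ≤ _
  simp only [plog_zero]
  rw [integral_prod _ hi, integral_fun_fst, probReal_univ, one_smul,
    ← integral_sub hi.integral_prod_left h0, ← Real.norm_eq_abs]
  refine (norm_integral_le_of_norm_le_const (C := (2 * A ^ 2 + 2) * s ^ 2)
    ((hν.orth.and hi.prod_right_ae).mono fun U hU => ?_)).trans_eq (by simp)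
  obtain ⟨hU, hgi⟩ := hU
  set v := fun σ => featV n lbl f U σ
  set d := fun σ => s * y (Sum.inr ()) * ‖v σ‖ ^ 2
  set w := fun σ => pvec y (v σ)
  set p : (Fin N → Bool) → ℝ := fun σ => Real.exp (clsEnergy dl lbl U σ) /
    ∑ τ, Real.exp (clsEnergy dl lbl U τ)
  have hpos : 0 < ∑ τ, Real.exp (clsEnergy dl lbl U τ) :=
    Finset.sum_pos (fun _ _ => Real.exp_pos _) Finset.univ_nonempty
  have hd0 : ∀ σ, 0 ≤ d σ := fun σ => mul_nonneg (mul_nonneg hs (hy _).1) (sq_nonneg _)
  have hd1 : ∀ σ, d σ ≤ 2 * s ^ 2 := fun σ => by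
    refine (mul_le_mul (mul_le_mul_of_nonneg_left (hy _).2 hs)
      (pow_le_one₀ (norm_nonneg _) (norm_featV_le_one hU σ)) (sq_nonneg _) (by positivity)).trans_eq ?_
    ring
  have hw : ∀ σ, ‖w σ‖ ^ 2 ≤ 4 * s ^ 2 * A ^ 2 := fun σ =>
    (pow_le_pow_left₀ (norm_nonneg _) (norm_pvec_le (abs_pbox hy) (norm_featV_le_one hU σ)) 2).trans_eq
      (by ring)
  have hX : ∀ σ, Integrable (fun g => Real.exp ⟪g, w σ⟫) γ := fun σ =>
    (Vale.Agent.P157.Low.integrable_exp_norm ‖w σ‖).mono' (by fun_prop)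
      (Filter.Eventually.of_forall fun g => by
        rw [Real.norm_eq_abs, Real.abs_exp, Real.exp_le_exp, mul_comm]
        exact real_inner_le_norm g _)
  have hlin : ∀ σ, Integrable (fun g => ⟪g, w σ⟫) γ := fun σ =>
    ((IsGaussian.integrable_id (μ := γ)).norm.mul_const ‖w σ‖).mono' (by fun_prop)
      (Filter.Eventually.of_forall fun g => by simpa using abs_real_inner_le_norm g (w σ))
  have hmean : ∀ σ, ∫ g, ⟪g, w σ⟫ ∂γ = 0 := fun σ => by
    have := integral_strongDual_stdGaussian (innerSL ℝ (w σ))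
    simpa [γ, real_inner_comm] using this
  have hlow : clog dl lbl U ≤ ∫ g, plog dl n lbl f s y U g ∂γ := by
    have e : ∀ g, clog dl lbl U + ∑ σ, p σ * ⟪g, w σ⟫ ≤ plog dl n lbl f s y U g := fun g => by
      have hJ := convexOn_exp.map_sum_le (t := Finset.univ) (w := p) (p := fun σ => ⟪g, w σ⟫ + d σ)
        (fun σ _ => div_nonneg (Real.exp_pos _).le hpos.le)
        (by simp only [p, ← Finset.sum_div]; exact div_self hpos.ne') (fun σ _ => Set.mem_univ _)
      simp only [smul_eq_mul] at hJ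
      have h2 : ∑ σ, p σ * Real.exp (⟪g, w σ⟫ + d σ) =
          (∑ σ, Real.exp (pertH dl n lbl f s y U g σ)) / ∑ τ, Real.exp (clsEnergy dl lbl U τ) := by
        simp only [p, div_mul_eq_mul_div, ← Finset.sum_div, ← Real.exp_add, pertH, d, w, v, add_assoc]
      rw [h2] at hJ
      have h3 := Real.log_le_log (Real.exp_pos _) hJ
      rw [Real.log_exp, Real.log_div (Finset.sum_pos (fun _ _ => Real.exp_pos _) Finset.univ_nonempty).ne'
        hpos.ne'] at h3
      have h4 : 0 ≤ ∑ σ, p σ * d σ := Finset.sum_nonneg fun σ _ =>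
        mul_nonneg (div_nonneg (Real.exp_pos _).le hpos.le) (hd0 σ)
      simp only [mul_add, Finset.sum_add_distrib] at h3
      simp only [plog, clog]
      linarith
    have hl : Integrable (fun g => ∑ σ, p σ * ⟪g, w σ⟫) γ :=
      integrable_finsetSum _ fun σ _ => (hlin σ).const_mul _
    refine le_of_eq_of_le ?_ (integral_mono ((integrable_const _).add hl) hgi e)
    rw [Pi.add_def, integral_add (integrable_const _) hl,
      integral_finsetSum _ fun σ _ => (hlin σ).const_mul _]
    simp [integral_const_mul, hmean, γ]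
  have hup : (∫ g, plog dl n lbl f s y U g ∂γ) ≤ clog dl lbl U + (2 * A ^ 2 + 2) * s ^ 2 := by
    set Z := fun g => ∑ σ, Real.exp (pertH dl n lbl f s y U g σ)
    have eZ : ∀ g, Z g = ∑ σ, Real.exp (clsEnergy dl lbl U σ + d σ) * Real.exp ⟪g, w σ⟫ := fun g => by
      simp only [Z, pertH, ← Real.exp_add, d, w, v]
      exact Finset.sum_congr rfl fun σ _ => by ring_nf
    have hZi : Integrable Z γ := by
      rw [show Z = _ from funext eZ]
      exact integrable_finsetSum _ fun σ _ => (hX σ).const_mul _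
    set B := Real.exp ((2 * A ^ 2 + 2) * s ^ 2) * ∑ τ, Real.exp (clsEnergy dl lbl U τ)
    have hB : 0 < B := mul_pos (Real.exp_pos _) hpos
    have hZle : ∫ g, Z g ∂γ ≤ B := by
      simp only [eZ, B, Finset.mul_sum]
      rw [integral_finsetSum _ fun σ _ => (hX σ).const_mul _]
      refine Finset.sum_le_sum fun σ _ => ?_
      rw [integral_const_mul, Vale.Agent.P157.Low.integral_exp_inner, ← Real.exp_add, ← Real.exp_add]
      exact Real.exp_le_exp.2 (by linarith [hd1 σ, hw σ])
    have e : ∀ g, plog dl n lbl f s y U g ≤ Real.log B + (Z g / B - 1) := fun g => by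
      have hZ : 0 < Z g := Finset.sum_pos (fun _ _ => Real.exp_pos _) Finset.univ_nonempty
      have h := Real.log_le_sub_one_of_pos (div_pos hZ hB)
      rw [Real.log_div hZ.ne' hB.ne'] at h
      show Real.log (Z g) ≤ _
      linarith
    have hb1 : Integrable (fun g => Z g / B - 1) γ := (hZi.div_const B).sub (integrable_const 1)
    refine (integral_mono hgi ((integrable_const _).add hb1) e).trans ?_
    rw [Pi.add_def, integral_add (integrable_const _) hb1,
      integral_sub (hZi.div_const B) (integrable_const 1), integral_div]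
    simp only [integral_const, probReal_univ, one_smul]
    have hlog : Real.log B = (2 * A ^ 2 + 2) * s ^ 2 + clog dl lbl U := by
      rw [Real.log_mul (Real.exp_pos _).ne' hpos.ne', Real.log_exp]
      rfl
    linarith [(div_le_one hB).2 hZle]
  rw [Real.norm_eq_abs, abs_of_nonneg (by linarith)]
  linarith

end Vale.Agent.P166F.Low
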