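import Vale.Agent.P166F.Low.Rot.Split

/-!
P166: the derivatives of the perturbed log-sum along rotations, through a Gaussian gradient.
-/

namespace Vale.Agent.P166F.Low

open MeasureTheory ProbabilityTheory Matrix
open scoped RealInnerProductSpace
open Vale.Agent.P166 (spin)
open Vale.Agent.P166F.Loop2 (vel mderiv sum_mderiv sum_sq_mderiv_le hasDerivAt_mterm dl_eq)

variable {κ : Type} [DecidableEq κ] {N n P : ℕ} {dl : κ → ℝ} {lbl : Fin N → κ} {f : κ} {s Λ : ℝ}
  {y : CIdx Unit P → ℝ}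

/-- The derivative of the field vector in the direction `h`. -/
noncomputable def gad (n : ℕ) (lbl : Fin N → κ) (f : κ) (y : CIdx Unit P → ℝ)
    (U : Fin N → Fin N → ℝ) (σ : Fin N → Bool) (h : EuclideanSpace ℝ (Fin N)) :
    EuclideanSpace ℝ (GIdx Unit P N) :=
  WithLp.toLp 2 fun x => y (Sum.inl x.1) *
    mderiv (expo1 x.1) (fun _ => featV n lbl f U σ) (fun _ => h) x.2

/-- The gradient of the field at a configuration. -/
noncomputable def ggrad (n : ℕ) (lbl : Fin N → κ) (f : κ) (y : CIdx Unit P → ℝ)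
    (U : Fin N → Fin N → ℝ) (σ : Fin N → Bool) (g : EuclideanSpace ℝ (GIdx Unit P N)) :
    EuclideanSpace ℝ (Fin N) :=
  WithLp.toLp 2 fun b => ⟪g, gad n lbl f y U σ (EuclideanSpace.single b 1)⟫

lemma inner_ggrad (U : Fin N → Fin N → ℝ) (σ : Fin N → Bool) (g : EuclideanSpace ℝ (GIdx Unit P N))
    (h : EuclideanSpace ℝ (Fin N)) :
    ⟪h, ggrad n lbl f y U σ g⟫ = ⟪g, gad n lbl f y U σ h⟫ := by
  have e : h = ∑ b, h b • EuclideanSpace.single b (1 : ℝ) := by
    ext i
    simp [Pi.single_apply]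
  have hadd : gad n lbl f y U σ h = ∑ b, h b • gad n lbl f y U σ (EuclideanSpace.single b 1) := by
    ext x
    simp only [gad, WithLp.ofLp_sum, Finset.sum_apply, WithLp.ofLp_smul, Pi.smul_apply, smul_eq_mul]
    conv_lhs => rw [e, ← sum_mderiv Finset.univ (expo1 x.1) (fun _ => featV n lbl f U σ) (fun b => h b)
      (fun b _ => EuclideanSpace.single b 1)]
    rw [Finset.mul_sum]
    exact Finset.sum_congr rfl fun b _ => by ring
  rw [hadd, inner_sum]
  simp only [real_inner_smul_right]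
  simp only [ggrad, PiLp.inner_apply, RCLike.inner_apply, conj_trivial]
  exact Finset.sum_congr rfl fun b _ => mul_comm _ _

/-- The Lipschitz constant of the field vector. -/
noncomputable def gcon (P : ℕ) (s : ℝ) : ℝ := 2 * s * (Fintype.card (CIdx Unit P) : ℝ) * ((P : ℝ) + 1)

lemma norm_gad_le (hy : y ∈ PBox s) {U : Fin N → Fin N → ℝ}
    (hU : (Matrix.of U)ᵀ * Matrix.of U = 1) (σ : Fin N → Bool) (h : EuclideanSpace ℝ (Fin N)) :
    ‖gad n lbl f y U σ h‖ ≤ gcon P s * ‖h‖ := by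
  set A : ℝ := (Fintype.card (CIdx Unit P) : ℝ)
  have hy' := abs_pbox hy
  have hs : 0 ≤ s := by linarith [(hy (Sum.inr ())).1, (hy (Sum.inr ())).2]
  have hA : 1 ≤ A := by
    simp only [A]
    exact_mod_cast Fintype.card_pos_iff.2 ⟨(Sum.inr () : CIdx Unit P)⟩
  have hcard : (Fintype.card (Mon Unit P) : ℝ) ≤ A := by
    simp only [A]
    exact_mod_cast Fintype.card_le_of_injective (Sum.inl : Mon Unit P → CIdx Unit P) Sum.inl_injective
  rw [gcon, ← sq_le_sq₀ (norm_nonneg _) (by positivity), EuclideanSpace.real_norm_sq_eq]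
  simp only [gad, mul_pow, Fintype.sum_sigma, ← Finset.mul_sum]
  calc ∑ x : Mon Unit P, y (Sum.inl x) ^ 2 * ∑ idx, mderiv (expo1 x) (fun _ => featV n lbl f U σ)
        (fun _ => h) idx ^ 2
      ≤ ∑ _x : Mon Unit P, (2 * s) ^ 2 * (((P : ℝ) + 1) ^ 2 * ‖h‖ ^ 2) := by
        refine Finset.sum_le_sum fun x _ => mul_le_mul (sq_le_sq' (abs_le.1 (hy' _)).1 (abs_le.1 (hy' _)).2)
          ((sum_sq_mderiv_le _ (fun _ => norm_featV_le_one hU _) (fun _ => le_rfl)).trans ?_)
          (Finset.sum_nonneg fun _ _ => sq_nonneg _) (sq_nonneg _)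
        exact mul_le_mul_of_nonneg_right
          (pow_le_pow_left₀ (Finset.sum_nonneg fun l _ => Nat.cast_nonneg _) (expo1_le x) 2) (sq_nonneg _)
    _ ≤ A ^ 2 * ((2 * s) ^ 2 * (((P : ℝ) + 1) ^ 2 * ‖h‖ ^ 2)) := by
        rw [Finset.sum_const, nsmul_eq_mul, Finset.card_univ]
        exact mul_le_mul_of_nonneg_right (hcard.trans (le_self_pow₀ hA two_ne_zero)) (by positivity)
    _ = _ := by ring

lemma norm_ggrad_le (hy : y ∈ PBox s) {U : Fin N → Fin N → ℝ}
    (hU : (Matrix.of U)ᵀ * Matrix.of U = 1) (σ : Fin N → Bool)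
    (g : EuclideanSpace ℝ (GIdx Unit P N)) : ‖ggrad n lbl f y U σ g‖ ≤ gcon P s * ‖g‖ := by
  set G := ggrad n lbl f y U σ g with hG
  have h := inner_ggrad (n := n) (lbl := lbl) (f := f) (y := y) U σ g G
  rw [← hG, real_inner_self_eq_norm_sq] at h
  have h2 : ‖G‖ ^ 2 ≤ gcon P s * ‖g‖ * ‖G‖ := by
    rw [h]
    refine (le_abs_self _).trans ((abs_real_inner_le_norm _ _).trans ?_)
    refine (mul_le_mul_of_nonneg_left (norm_gad_le hy hU σ G) (norm_nonneg g)).trans_eq (by ring)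
  rcases eq_or_lt_of_le (norm_nonneg G) with h0 | h0
  · have hs : 0 ≤ s := by linarith [(hy (Sum.inr ())).1, (hy (Sum.inr ())).2]
    rw [← h0, gcon]
    positivity
  · exact le_of_mul_le_mul_right (by linarith [sq ‖G‖]) h0

lemma continuous_ggrad (σ : Fin N → Bool) :
    Continuous fun z : (Fin N → Fin N → ℝ) × EuclideanSpace ℝ (GIdx Unit P N) =>
      ggrad n lbl f y z.1 σ z.2 := by
  refine (PiLp.continuous_toLp 2 _).comp (continuous_pi fun b => continuous_snd.inner ?_)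
  refine (PiLp.continuous_toLp 2 _).comp (continuous_pi fun x => continuous_const.mul ?_)
  simp only [mderiv]
  exact continuous_finsetSum _ fun u _ => Continuous.fun_mul (continuous_finsetProd _ fun u' _ =>
    ((contDiff_featV (n := n) (lbl := lbl) (f := f) σ (x.2 u'.1 u'.2)).continuous.comp continuous_fst))
    continuous_const

lemma featV_vel (a b i : Fin N) (U : Fin N → Fin N → ℝ) (σ : Fin N → Bool) :
    featV n lbl f (vel b a U) σ i =
      (if i = b then (if lbl b = f then coord U σ a / Real.sqrt (max n N : ℕ) else 0) else 0) -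
        (if i = a then (if lbl a = f then coord U σ b / Real.sqrt (max n N : ℕ) else 0) else 0) := by
  simp only [featV, coord_vel]
  by_cases h1 : i = b <;> by_cases h2 : i = a
  · subst h1; subst h2; split_ifs <;> simp
  · subst h1; simp only [if_neg h2]; split_ifs <;> simp
  · subst h2; simp only [if_neg h1]; split_ifs <;> simp [neg_div]
  · simp [if_neg h1, if_neg h2]

lemma hasDerivAt_pertH_gen (U : Fin N → Fin N → ℝ) (g : EuclideanSpace ℝ (GIdx Unit P N))
    (σ : Fin N → Bool) (a b : Fin N) :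
    HasDerivAt (fun t : ℝ => pertH dl n lbl f s y (U + t • vel b a U) g σ)
      ((dl (lbl b) - dl (lbl a)) * (coord U σ a * coord U σ b) +
        ⟪featV n lbl f (vel b a U) σ,
          ggrad n lbl f y U σ g + (2 * (s * y (Sum.inr ()))) • featV n lbl f U σ⟫) 0 := by
  set V := vel b a U with hV
  have h1 : HasDerivAt (fun t : ℝ => clsEnergy dl lbl (U + t • V) σ)
      ((dl (lbl b) - dl (lbl a)) * (coord U σ a * coord U σ b)) 0 := by
    refine ((HasDerivAt.fun_sum fun i (_ : i ∈ Finset.univ) =>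
      ((hasDerivAt_coord σ i U V).pow 2).const_mul (dl (lbl i))).div_const 2).congr_deriv ?_
    simp only [zero_smul, add_zero, hV, coord_vel, Nat.cast_ofNat, pow_one, Nat.add_one_sub_one,
      mul_sub, mul_ite, mul_zero, Finset.sum_sub_distrib, Finset.sum_ite_eq', Finset.mem_univ, if_true]
    ring
  have h2 : HasDerivAt (fun t : ℝ => ⟪g, pvec y (featV n lbl f (U + t • V) σ)⟫)
      ⟪g, gad n lbl f y U σ (featV n lbl f V σ)⟫ 0 := by
    simp only [PiLp.inner_apply, RCLike.inner_apply, conj_trivial]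
    refine HasDerivAt.fun_sum fun x _ => ?_
    refine HasDerivAt.mul_const ?_ (g x)
    simp only [pvec_apply, gad]
    refine HasDerivAt.const_mul _ ?_
    simpa using hasDerivAt_mterm (expo1 x.1) (v := fun t (_ : Unit) => featV n lbl f (U + t • V) σ)
      (fun _ d => hasDerivAt_featV σ d U V) x.2
  have h3 : HasDerivAt (fun t : ℝ => ‖featV n lbl f (U + t • V) σ‖ ^ 2)
      (2 * ⟪featV n lbl f V σ, featV n lbl f U σ⟫) 0 := by
    simp only [EuclideanSpace.real_norm_sq_eq]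
    refine (HasDerivAt.fun_sum fun i (_ : i ∈ Finset.univ) =>
      (hasDerivAt_featV (n := n) (lbl := lbl) (f := f) σ i U V).pow 2).congr_deriv ?_
    simp only [zero_smul, add_zero, Nat.cast_ofNat, pow_one, Nat.add_one_sub_one, PiLp.inner_apply,
      RCLike.inner_apply, conj_trivial, Finset.mul_sum]
    exact Finset.sum_congr rfl fun i _ => by ring
  refine ((h1.add h2).add (h3.const_mul (s * y (Sum.inr ())))).congr_deriv ?_
  rw [inner_add_right, real_inner_smul_right, inner_ggrad]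
  ring

lemma sum_sq_dl_pertH_le (hΛ : ∀ j, |dl j| ≤ Λ) (hs : 0 ≤ s) (hy : y ∈ PBox s)
    {U : Fin N → Fin N → ℝ} (hU : (Matrix.of U)ᵀ * Matrix.of U = 1)
    (g : EuclideanSpace ℝ (GIdx Unit P N)) (σ : Fin N → Bool) :
    ∑ a, ∑ b, Orth.dl (fun U => pertH dl n lbl f s y U g σ) a b U ^ 2 ≤
      8 * Λ ^ 2 * (N : ℝ) ^ 2 + 256 * s ^ 4 + 16 * ‖ggrad n lbl f y U σ g‖ ^ 2 := by
  set Gp := ggrad n lbl f y U σ g + (2 * (s * y (Sum.inr ()))) • featV n lbl f U σ with hGp
  set M : ℝ := ((max n N : ℕ) : ℝ)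
  have hG : ‖Gp‖ ^ 2 ≤ 2 * ‖ggrad n lbl f y U σ g‖ ^ 2 + 32 * s ^ 4 := by
    have h1 : ‖(2 * (s * y (Sum.inr ()))) • featV n lbl f U σ‖ ≤ 4 * s ^ 2 := by
      rw [norm_smul, Real.norm_eq_abs, abs_mul, abs_mul, abs_two, abs_of_nonneg hs]
      refine (mul_le_mul (mul_le_mul_of_nonneg_left (mul_le_mul_of_nonneg_left (abs_pbox hy _) hs) two_pos.le)
        (norm_featV_le_one hU σ) (norm_nonneg _) (by positivity)).trans_eq ?_
      ring
    have h2 := norm_add_le (ggrad n lbl f y U σ g) ((2 * (s * y (Sum.inr ()))) • featV n lbl f U σ)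
    have h3 : ‖Gp‖ ≤ ‖ggrad n lbl f y U σ g‖ + 4 * s ^ 2 := h2.trans (add_le_add le_rfl h1)
    have h4 := pow_le_pow_left₀ (norm_nonneg Gp) h3 2
    nlinarith [sq_nonneg (‖ggrad n lbl f y U σ g‖ - 4 * s ^ 2)]
  have hterm : ∀ a b, Orth.dl (fun U => pertH dl n lbl f s y U g σ) a b U ^ 2 ≤
      8 * Λ ^ 2 * (coord U σ a ^ 2 * coord U σ b ^ 2) +
        4 * (Gp b ^ 2 * coord U σ a ^ 2 / M + Gp a ^ 2 * coord U σ b ^ 2 / M) := fun a b => by
    rw [dl_eq (contDiff_pertH g σ) (hasDerivAt_pertH_gen U g σ a b), ← hGp]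
    have e : ⟪featV n lbl f (vel b a U) σ, Gp⟫ =
        (if lbl b = f then Gp b * (coord U σ a / Real.sqrt M) else 0) -
          (if lbl a = f then Gp a * (coord U σ b / Real.sqrt M) else 0) := by
      simp only [PiLp.inner_apply, RCLike.inner_apply, conj_trivial, featV_vel, mul_sub, mul_ite,
        mul_zero, Finset.sum_sub_distrib, Finset.sum_ite_eq', Finset.mem_univ, if_true, M]
    have hsq : ∀ (p : Prop) [Decidable p] (x u : ℝ),
        (if p then x * (u / Real.sqrt M) else 0) ^ 2 ≤ x ^ 2 * u ^ 2 / M := by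
      intro p _ x u
      split_ifs
      · rw [mul_pow, div_pow, Real.sq_sqrt (Nat.cast_nonneg _), mul_div_assoc]
      · rw [zero_pow two_ne_zero]
        positivity
    have h1 := hsq (lbl b = f) (Gp b) (coord U σ a)
    have h2 := hsq (lbl a = f) (Gp a) (coord U σ b)
    have hd : (dl (lbl b) - dl (lbl a)) ^ 2 ≤ 4 * Λ ^ 2 := by
      have h3 := _root_.abs_le.1 (hΛ (lbl a))
      have h4 := _root_.abs_le.1 (hΛ (lbl b))
      have h5 : |dl (lbl b) - dl (lbl a)| ≤ 2 * Λ := _root_.abs_le.2 ⟨by linarith, by linarith⟩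
      nlinarith [sq_abs (dl (lbl b) - dl (lbl a)), abs_nonneg (dl (lbl b) - dl (lbl a))]
    rw [e]
    set E1 := (dl (lbl b) - dl (lbl a)) * (coord U σ a * coord U σ b) with hE1
    have h6 : E1 ^ 2 ≤ 4 * Λ ^ 2 * (coord U σ a ^ 2 * coord U σ b ^ 2) := by
      rw [hE1, mul_pow, mul_pow (coord U σ a)]
      exact mul_le_mul_of_nonneg_right hd (by positivity)
    set X := if lbl b = f then Gp b * (coord U σ a / Real.sqrt M) else 0
    set Y := if lbl a = f then Gp a * (coord U σ b / Real.sqrt M) else 0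
    nlinarith [sq_nonneg (E1 - (X - Y)), sq_nonneg (X + Y)]
  have hM : (N : ℝ) / M ≤ 1 :=
    div_le_one_of_le₀ (by simp only [M]; exact_mod_cast le_max_right n N) (Nat.cast_nonneg _)
  have hc := sum_coord_sq hU σ
  have hGn : ∑ i, Gp i ^ 2 = ‖Gp‖ ^ 2 := (EuclideanSpace.real_norm_sq_eq Gp).symm
  calc _ ≤ ∑ a, ∑ b, (8 * Λ ^ 2 * (coord U σ a ^ 2 * coord U σ b ^ 2) +
        4 * (Gp b ^ 2 * coord U σ a ^ 2 / M + Gp a ^ 2 * coord U σ b ^ 2 / M)) :=
        Finset.sum_le_sum fun a _ => Finset.sum_le_sum fun b _ => hterm a b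
    _ = 8 * Λ ^ 2 * (N : ℝ) ^ 2 + 8 * ‖Gp‖ ^ 2 * ((N : ℝ) / M) := by
        simp only [Finset.sum_add_distrib, mul_add, ← Finset.mul_sum, ← Finset.sum_div, ← Finset.sum_mul,
          hc, hGn]
        ring
    _ ≤ _ := by nlinarith [mul_le_mul_of_nonneg_left hM (sq_nonneg ‖Gp‖)]

end Vale.Agent.P166F.Low
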