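import Vale.Agent.P166F.Low.Rot.Free
import Vale.Agent.P166F.Up.LoopMain

/-!
P166: overlaps spread evenly between classes of equal slope.
-/

namespace Vale.Agent.P166F.Low

open MeasureTheory ProbabilityTheory Matrix
open scoped RealInnerProductSpace
open Vale.Agent.P166N.Spectrum (OrthInvLaw)
open Vale.Agent.P166F.Loop2 (vel gw avg3 avg3_add avg3_sum abs_avg3_le mderiv sum_mderiv
  sum_sq_mderiv_le hasDerivAt_mterm hasDerivAt_pair dl_eq measurable_avg3)

variable {κ : Type} [DecidableEq κ] {N n P : ℕ} {dl : κ → ℝ} {lbl : Fin N → κ} {e f : κ} {s : ℝ}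
  {y : CIdx Unit P → ℝ}

lemma coord_add_smul (U V : Fin N → Fin N → ℝ) (σ : Fin N → Bool) (i : Fin N) (t : ℝ) :
    coord (U + t • V) σ i = coord U σ i + t * coord V σ i := by
  simp only [coord, Pi.add_apply, Pi.smul_apply, smul_eq_mul, add_mul, Finset.sum_add_distrib,
    Finset.mul_sum, mul_assoc]

lemma coord_vel (σ : Fin N → Bool) (p q i : Fin N) (U : Fin N → Fin N → ℝ) :
    coord (vel p q U) σ i = (if i = p then coord U σ q else 0) - if i = q then coord U σ p else 0 := by
  simp only [coord_eq_proj, vel, Orth.proj_pk]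

lemma hasDerivAt_coord (σ : Fin N → Bool) (i : Fin N) (U V : Fin N → Fin N → ℝ) :
    HasDerivAt (fun t : ℝ => coord (U + t • V) σ i) (coord V σ i) 0 := by
  simp only [coord_add_smul]
  simpa using ((hasDerivAt_id (0 : ℝ)).mul_const (coord V σ i)).const_add (coord U σ i)

lemma contDiff_coord (σ : Fin N → Bool) (i : Fin N) :
    ContDiff ℝ 1 fun U : Fin N → Fin N → ℝ => coord U σ i := by
  unfold coord
  fun_prop

lemma contDiff_featV (σ : Fin N → Bool) (i : Fin N) :
    ContDiff ℝ 1 fun U : Fin N → Fin N → ℝ => featV n lbl f U σ i := by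
  simp only [featV]
  split_ifs
  · exact (contDiff_coord σ i).div_const _
  · exact contDiff_const

lemma hasDerivAt_featV (σ : Fin N → Bool) (i : Fin N) (U V : Fin N → Fin N → ℝ) :
    HasDerivAt (fun t : ℝ => featV n lbl f (U + t • V) σ i) (featV n lbl f V σ i) 0 := by
  simp only [featV]
  split_ifs
  · exact (hasDerivAt_coord σ i U V).div_const _
  · exact hasDerivAt_const _ _

lemma contDiff_pertH (g : EuclideanSpace ℝ (GIdx Unit P N)) (σ : Fin N → Bool) :
    ContDiff ℝ 1 fun U => pertH dl n lbl f s y U g σ := by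
  simp only [pertH, clsEnergy, EuclideanSpace.real_norm_sq_eq, PiLp.inner_apply, RCLike.inner_apply,
    conj_trivial]
  refine (((ContDiff.sum fun i _ => contDiff_const.mul ((contDiff_coord σ i).pow 2)).div_const 2).add
    (ContDiff.sum fun x _ => ?_)).add (contDiff_const.mul (ContDiff.sum fun i _ => (contDiff_featV σ i).pow 2))
  refine ContDiff.mul ?_ contDiff_const
  exact contDiff_const.mul (contDiff_prod fun j _ => contDiff_prod fun u _ => contDiff_featV σ _)

/-- The pairs of coordinates of two classes. -/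
def cpairs (lbl : Fin N → κ) (e f : κ) : Finset (Fin N × Fin N) :=
  (Finset.univ.filter fun i => lbl i = e) ×ˢ (Finset.univ.filter fun i => lbl i = f)

lemma sum_cpairs (u v : Fin N → ℝ) :
    ∑ pq ∈ cpairs lbl e f, u pq.1 * v pq.2 =
      (∑ p, if lbl p = e then u p else 0) * ∑ q, if lbl q = f then v q else 0 := by
  rw [cpairs, Finset.sum_product, ← Finset.sum_filter, ← Finset.sum_filter, Finset.sum_mul_sum]

lemma sum_cpairs_fst (u : Fin N → ℝ) :
    ∑ pq ∈ cpairs lbl e f, u pq.1 = (csize lbl f : ℝ) * ∑ p, if lbl p = e then u p else 0 := by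
  have h := sum_cpairs (lbl := lbl) (e := e) (f := f) u (fun _ => 1)
  simp only [mul_one] at h
  rw [h, Finset.sum_boole, mul_comm]
  rfl

lemma sum_cpairs_snd (v : Fin N → ℝ) :
    ∑ pq ∈ cpairs lbl e f, v pq.2 = (csize lbl e : ℝ) * ∑ q, if lbl q = f then v q else 0 := by
  have h := sum_cpairs (lbl := lbl) (e := e) (f := f) (fun _ => 1) v
  simp only [one_mul] at h
  rw [h, Finset.sum_boole]
  rfl

/-- The difference of the rescaled overlaps. -/
def dif (lbl : Fin N → κ) (e f : κ) (U : Fin N → Fin N → ℝ) (σ τ : Fin N → Bool) : ℝ :=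
  (csize lbl f : ℝ) * clsOv lbl e U σ τ - (csize lbl e : ℝ) * clsOv lbl f U σ τ

lemma csize_le (j : κ) : (csize lbl j : ℝ) ≤ N := by
  exact_mod_cast (Finset.card_filter_le _ _).trans_eq (by simp)

lemma abs_dif_le {U : Fin N → Fin N → ℝ} (hU : (Matrix.of U)ᵀ * Matrix.of U = 1)
    (σ τ : Fin N → Bool) : |dif lbl e f U σ τ| ≤ 2 * (N : ℝ) ^ 2 := by
  refine (abs_sub _ _).trans ?_
  rw [abs_mul, abs_mul, Nat.abs_cast, Nat.abs_cast]
  have h1 := mul_le_mul (csize_le (lbl := lbl) f) (abs_clsOv_le (lbl := lbl) e hU σ τ) (abs_nonneg _)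
    (Nat.cast_nonneg N)
  have h2 := mul_le_mul (csize_le (lbl := lbl) e) (abs_clsOv_le (lbl := lbl) f hU σ τ) (abs_nonneg _)
    (Nat.cast_nonneg N)
  linarith

/-- The vector paired with the perturbing field. -/
noncomputable def svec (n : ℕ) (lbl : Fin N → κ) (e f : κ) (y : CIdx Unit P → ℝ)
    (U : Fin N → Fin N → ℝ) (p : (Fin N → Bool) × (Fin N → Bool) × (Fin N → Bool)) :
    EuclideanSpace ℝ (GIdx Unit P N) :=
  WithLp.toLp 2 fun x => y (Sum.inl x.1) * mderiv (expo1 x.1) (fun _ => featV n lbl f U p.2.2)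
    (fun _ => (-(dif lbl e f U p.1 p.2.1 * clsOv lbl e U p.1 p.2.2)) • featV n lbl f U p.2.1) x.2

lemma sum_vel_featV (hef : e ≠ f) (U : Fin N → Fin N → ℝ) (σ τ ρ : Fin N → Bool) (d : ℝ) :
    ∑ pq ∈ cpairs lbl e f, (d * (coord U σ pq.1 * coord U τ pq.2)) •
        featV n lbl f (vel pq.1 pq.2 U) ρ =
      (-(d * clsOv lbl e U σ ρ)) • featV n lbl f U τ := by
  ext b
  simp only [WithLp.ofLp_sum, Finset.sum_apply, WithLp.ofLp_smul, Pi.smul_apply, smul_eq_mul, featV,
    coord_vel]
  by_cases hb : lbl b = f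
  · simp only [if_pos hb, ← mul_div_assoc, ← Finset.sum_div]
    congr 1
    rw [show cpairs lbl e f = (Finset.univ.filter fun i => lbl i = e) ×ˢ
      (Finset.univ.filter fun i => lbl i = f) from rfl, Finset.sum_product,
      Loop2.pick _ _ b d (fun i => coord U σ i) (fun i => coord U τ i) (fun i => coord U ρ i)]
    simp only [Finset.mem_filter, Finset.mem_univ, true_and, hb, if_true, if_neg (Ne.symm hef),
      zero_sub, clsOv, ← Finset.sum_filter]
    ring
  · simp only [if_neg hb, mul_zero, Finset.sum_const_zero]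

lemma norm_svec_le (hN : 1 ≤ N) {U : Fin N → Fin N → ℝ} (hU : (Matrix.of U)ᵀ * Matrix.of U = 1)
    (hy : y ∈ PBox s) (p : (Fin N → Bool) × (Fin N → Bool) × (Fin N → Bool)) :
    ‖svec n lbl e f y U p‖ ≤ (4 * (Fintype.card (CIdx Unit P) : ℝ) * ((P : ℝ) + 1)) * s *
      ((N : ℝ) ^ 3 * (Real.sqrt N / Real.sqrt (max n N : ℕ))) := by
  set A : ℝ := (Fintype.card (CIdx Unit P) : ℝ)
  set B : ℝ := 2 * (N : ℝ) ^ 3 * (Real.sqrt N / Real.sqrt (max n N : ℕ))
  have hy' := abs_pbox hy
  have hs : 0 ≤ s := by linarith [(hy (Sum.inr ())).1, (hy (Sum.inr ())).2]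
  have hv : ‖featV n lbl f U p.2.1‖ ≤ Real.sqrt N / Real.sqrt (max n N : ℕ) := by
    rw [← Real.sqrt_div (Nat.cast_nonneg N)]
    refine Real.le_sqrt_of_sq_le ?_
    rw [norm_featV_sq_clsOv]
    exact div_le_div_of_nonneg_right ((le_abs_self _).trans (abs_clsOv_le f hU _ _)) (Nat.cast_nonneg _)
  have hw : ‖(-(dif lbl e f U p.1 p.2.1 * clsOv lbl e U p.1 p.2.2)) • featV n lbl f U p.2.1‖ ≤ B := by
    rw [norm_smul, Real.norm_eq_abs, abs_neg, abs_mul]
    refine (mul_le_mul (mul_le_mul (abs_dif_le hU _ _) (abs_clsOv_le e hU _ _) (abs_nonneg _)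
      (by positivity)) hv (norm_nonneg _) (by positivity)).trans_eq ?_
    simp only [B]
    ring
  have hA : 1 ≤ A := by
    simp only [A]
    exact_mod_cast Fintype.card_pos_iff.2 ⟨(Sum.inr () : CIdx Unit P)⟩
  have hcard : (Fintype.card (Mon Unit P) : ℝ) ≤ A := by
    simp only [A]
    exact_mod_cast Fintype.card_le_of_injective (Sum.inl : Mon Unit P → CIdx Unit P) Sum.inl_injective
  rw [← sq_le_sq₀ (norm_nonneg _) (by positivity), EuclideanSpace.real_norm_sq_eq]
  simp only [svec, mul_pow, Fintype.sum_sigma, ← Finset.mul_sum]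
  calc ∑ x : Mon Unit P, y (Sum.inl x) ^ 2 * ∑ idx, mderiv (expo1 x) (fun _ => featV n lbl f U p.2.2)
        (fun _ => (-(dif lbl e f U p.1 p.2.1 * clsOv lbl e U p.1 p.2.2)) • featV n lbl f U p.2.1) idx ^ 2
      ≤ ∑ _x : Mon Unit P, (2 * s) ^ 2 * (((P : ℝ) + 1) ^ 2 * B ^ 2) := by
        refine Finset.sum_le_sum fun x _ => mul_le_mul (sq_le_sq' (abs_le.1 (hy' _)).1 (abs_le.1 (hy' _)).2)
          ((sum_sq_mderiv_le _ (fun _ => norm_featV_le_one hU _) (fun _ => hw)).trans ?_)
          (Finset.sum_nonneg fun _ _ => sq_nonneg _) (sq_nonneg _)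
        exact mul_le_mul_of_nonneg_right
          (pow_le_pow_left₀ (Finset.sum_nonneg fun l _ => Nat.cast_nonneg _) (expo1_le x) 2) (sq_nonneg B)
    _ ≤ A ^ 2 * ((2 * s) ^ 2 * (((P : ℝ) + 1) ^ 2 * B ^ 2)) := by
        rw [Finset.sum_const, nsmul_eq_mul, Finset.card_univ]
        exact mul_le_mul_of_nonneg_right (hcard.trans (le_self_pow₀ hA two_ne_zero)) (by positivity)
    _ = _ := by simp only [B]; ring

/-- The two chosen replicas. -/
def pick2 (a : Fin 2) (x y : Fin N → Bool) : Fin N → Bool := ![x, y] a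

/-- The tested square. -/
def sq2 (lbl : Fin N → κ) (e f : κ) (U : Fin N → Fin N → ℝ) (a b : Fin 2) (x y _z : Fin N → Bool) : ℝ :=
  dif lbl e f U (pick2 a x y) (pick2 b x y) ^ 2

/-- The explicit error. -/
noncomputable def err2 (n : ℕ) (lbl : Fin N → κ) (e f : κ) (s : ℝ) (y : CIdx Unit P → ℝ)
    (U : Fin N → Fin N → ℝ) (a b : Fin 2) (x x' w : Fin N → Bool) : ℝ :=
  ((csize lbl f : ℝ) + csize lbl e) *
    (clsOv lbl e U (pick2 a x x') (pick2 b x x') * clsOv lbl f U (pick2 a x x') (pick2 b x x') +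
      clsOv lbl e U (pick2 a x x') (pick2 a x x') * clsOv lbl f U (pick2 b x x') (pick2 b x x')) -
    2 * (s * y (Sum.inr ())) * dif lbl e f U (pick2 a x x') (pick2 b x x') / (max n N : ℕ) *
      (clsOv lbl e U (pick2 a x x') x * clsOv lbl f U (pick2 b x x') x +
        clsOv lbl e U (pick2 a x x') x' * clsOv lbl f U (pick2 b x x') x' -
        2 * (clsOv lbl e U (pick2 a x x') w * clsOv lbl f U (pick2 b x x') w))

/-- The field part. -/
noncomputable def fld2 (n : ℕ) (lbl : Fin N → κ) (e f : κ) (y : CIdx Unit P → ℝ)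
    (U : Fin N → Fin N → ℝ) (g : EuclideanSpace ℝ (GIdx Unit P N)) (a b : Fin 2)
    (x x' w : Fin N → Bool) : ℝ :=
  ⟪g, svec n lbl e f y U (pick2 a x x', pick2 b x x', x)⟫ +
    ⟪g, svec n lbl e f y U (pick2 a x x', pick2 b x x', x')⟫ -
    2 * ⟪g, svec n lbl e f y U (pick2 a x x', pick2 b x x', w)⟫

/-- The derivative of the exponent along a rotation of coordinates of the two classes. -/
noncomputable def dH (n : ℕ) (lbl : Fin N → κ) (f : κ) (s : ℝ) (y : CIdx Unit P → ℝ)
    (U : Fin N → Fin N → ℝ) (g : EuclideanSpace ℝ (GIdx Unit P N)) (pq : Fin N × Fin N)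
    (σ : Fin N → Bool) : ℝ :=
  (∑ x : GIdx Unit P N, g x * (y (Sum.inl x.1) * mderiv (expo1 x.1) (fun _ => featV n lbl f U σ)
    (fun _ => featV n lbl f (vel pq.1 pq.2 U) σ) x.2)) -
    2 * (s * y (Sum.inr ())) * (coord U σ pq.1 * coord U σ pq.2) / (max n N : ℕ)

lemma hasDerivAt_pertH (hef : e ≠ f) (hdl : dl e = dl f) (U : Fin N → Fin N → ℝ)
    (g : EuclideanSpace ℝ (GIdx Unit P N)) {pq : Fin N × Fin N} (hpq : pq ∈ cpairs lbl e f)
    (σ : Fin N → Bool) : HasDerivAt (fun t : ℝ => pertH dl n lbl f s y (U + t • vel pq.1 pq.2 U) g σ)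
      (dH n lbl f s y U g pq σ) 0 := by
  simp only [cpairs, Finset.mem_product, Finset.mem_filter, Finset.mem_univ, true_and] at hpq
  set V := vel pq.1 pq.2 U with hV
  have h1 : HasDerivAt (fun t : ℝ => clsEnergy dl lbl (U + t • V) σ) 0 0 := by
    refine ((HasDerivAt.fun_sum fun i (_ : i ∈ Finset.univ) =>
      ((hasDerivAt_coord σ i U V).pow 2).const_mul (dl (lbl i))).div_const 2).congr_deriv ?_
    simp only [zero_smul, add_zero, hV, coord_vel, Nat.cast_ofNat, pow_one, Nat.add_one_sub_one,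
      mul_sub, mul_ite, mul_zero, Finset.sum_sub_distrib, Finset.sum_ite_eq', Finset.mem_univ, if_true,
      hpq.1, hpq.2, hdl]
    ring
  have h2 : HasDerivAt (fun t : ℝ => ⟪g, pvec y (featV n lbl f (U + t • V) σ)⟫)
      (∑ x : GIdx Unit P N, g x * (y (Sum.inl x.1) * mderiv (expo1 x.1) (fun _ => featV n lbl f U σ)
        (fun _ => featV n lbl f V σ) x.2)) 0 := by
    simp only [PiLp.inner_apply, RCLike.inner_apply, conj_trivial]
    refine HasDerivAt.fun_sum fun x _ => ?_
    rw [mul_comm (g x)]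
    refine HasDerivAt.mul_const ?_ (g x)
    simp only [pvec_apply]
    refine HasDerivAt.const_mul _ ?_
    simpa using hasDerivAt_mterm (expo1 x.1) (v := fun t (_ : Unit) => featV n lbl f (U + t • V) σ)
      (fun _ d => hasDerivAt_featV σ d U V) x.2
  have h3 : HasDerivAt (fun t : ℝ => ‖featV n lbl f (U + t • V) σ‖ ^ 2)
      (-(2 * (coord U σ pq.1 * coord U σ pq.2) / (max n N : ℕ))) 0 := by
    simp only [EuclideanSpace.real_norm_sq_eq]
    refine (HasDerivAt.fun_sum fun i (_ : i ∈ Finset.univ) =>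
      (hasDerivAt_featV (n := n) (lbl := lbl) (f := f) σ i U V).pow 2).congr_deriv ?_
    simp only [zero_smul, add_zero, Nat.cast_ofNat, pow_one, Nat.add_one_sub_one]
    rw [Finset.sum_eq_single pq.2]
    · have hne : pq.2 ≠ pq.1 := fun h => hef (hpq.1.symm.trans (h ▸ hpq.2))
      simp only [featV, hpq.2, if_true, hV, coord_vel, if_neg hne, zero_sub, neg_div, mul_neg]
      rw [show (2 : ℝ) * (coord U σ pq.2 / Real.sqrt (max n N : ℕ)) *
        (coord U σ pq.1 / Real.sqrt (max n N : ℕ)) = 2 * (coord U σ pq.2 * coord U σ pq.1) /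
          (Real.sqrt (max n N : ℕ) * Real.sqrt (max n N : ℕ)) by ring,
        Real.mul_self_sqrt (Nat.cast_nonneg _)]
      ring
    · intro i _ hi
      simp only [featV]
      split_ifs with h
      · have hne : i ≠ pq.1 := fun h' => hef (hpq.1.symm.trans (h' ▸ h))
        simp [hV, coord_vel, hi, hne]
      · simp
    · simp
  refine ((h1.add h2).add (h3.const_mul (s * y (Sum.inr ())))).congr_deriv ?_
  simp only [dH, zero_add]
  ring

lemma sum_dl_split (hef : e ≠ f) (hdl : dl e = dl f) (U : Fin N → Fin N → ℝ)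
    (g : EuclideanSpace ℝ (GIdx Unit P N)) (a b : Fin 2) :
    ∑ pq ∈ cpairs lbl e f, Orth.dl (fun U' => ∑ x, ∑ x', gw (fun σ => pertH dl n lbl f s y U' g σ) x *
        gw (fun σ => pertH dl n lbl f s y U' g σ) x' *
        (dif lbl e f U' (pick2 a x x') (pick2 b x x') *
          (coord U' (pick2 a x x') pq.1 * coord U' (pick2 b x x') pq.2))) pq.2 pq.1 U =
      avg3 (fun σ => pertH dl n lbl f s y U g σ) fun x x' w =>
        -sq2 lbl e f U a b x x' w + (err2 n lbl e f s y U a b x x' w + fld2 n lbl e f y U g a b x x' w) := by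
  set Θ := fun (U' : Fin N → Fin N → ℝ) (pq : Fin N × Fin N) (x x' : Fin N → Bool) =>
    dif lbl e f U' (pick2 a x x') (pick2 b x x') *
      (coord U' (pick2 a x x') pq.1 * coord U' (pick2 b x x') pq.2)
  set Θ' := fun (pq : Fin N × Fin N) (x x' : Fin N → Bool) =>
    ((csize lbl f : ℝ) + csize lbl e) * (coord U (pick2 a x x') pq.2 * coord U (pick2 b x x') pq.1 +
        coord U (pick2 a x x') pq.1 * coord U (pick2 b x x') pq.2) *
      (coord U (pick2 a x x') pq.1 * coord U (pick2 b x x') pq.2) +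
    dif lbl e f U (pick2 a x x') (pick2 b x x') *
      (coord U (pick2 a x x') pq.2 * coord U (pick2 b x x') pq.2 -
        coord U (pick2 a x x') pq.1 * coord U (pick2 b x x') pq.1)
  have key : ∀ pq ∈ cpairs lbl e f, Orth.dl (fun U' => ∑ x, ∑ x',
      gw (fun σ => pertH dl n lbl f s y U' g σ) x * gw (fun σ => pertH dl n lbl f s y U' g σ) x' *
        Θ U' pq x x') pq.2 pq.1 U =
      avg3 (fun σ => pertH dl n lbl f s y U g σ) fun x x' w => Θ' pq x x' + Θ U pq x x' *
        (dH n lbl f s y U g pq x + dH n lbl f s y U g pq x' - 2 * dH n lbl f s y U g pq w) := by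
    intro pq hpq
    have hpq' := hpq
    simp only [cpairs, Finset.mem_product, Finset.mem_filter, Finset.mem_univ, true_and] at hpq'
    have hne : pq.1 ≠ pq.2 := fun h => hef (hpq'.1.symm.trans (h ▸ hpq'.2))
    have hC : ContDiff ℝ 1 fun U' => ∑ x, ∑ x', gw (fun σ => pertH dl n lbl f s y U' g σ) x *
        gw (fun σ => pertH dl n lbl f s y U' g σ) x' * Θ U' pq x x' := by
      have hw : ∀ x, ContDiff ℝ 1 fun U' => gw (fun σ => pertH dl n lbl f s y U' g σ) x := fun x =>
        (contDiff_pertH g x).exp.div (ContDiff.sum fun σ _ => (contDiff_pertH g σ).exp)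
          fun U' => (Loop2.gw_den_pos fun σ => pertH dl n lbl f s y U' g σ).ne'
      have ho : ∀ j σ τ, ContDiff ℝ 1 fun U' => clsOv lbl j U' σ τ := fun j σ τ => by
        refine ContDiff.sum fun i _ => ?_
        split_ifs
        · exact (contDiff_coord σ i).mul (contDiff_coord τ i)
        · exact contDiff_const
      exact ContDiff.sum fun x _ => ContDiff.sum fun x' _ => ((hw x).mul (hw x')).mul
        (((contDiff_const.mul (ho e _ _)).sub (contDiff_const.mul (ho f _ _))).mul
          ((contDiff_coord _ _).mul (contDiff_coord _ _)))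
    refine dl_eq hC ?_
    have ho : ∀ j σ τ, HasDerivAt (fun t : ℝ => clsOv lbl j (U + t • vel pq.1 pq.2 U) σ τ)
        ((if lbl pq.1 = j then coord U σ pq.2 * coord U τ pq.1 + coord U σ pq.1 * coord U τ pq.2 else 0) -
          if lbl pq.2 = j then coord U σ pq.1 * coord U τ pq.2 + coord U σ pq.2 * coord U τ pq.1 else 0) 0 := by
      intro j σ τ
      have hterm : ∀ i, HasDerivAt (fun t : ℝ => if lbl i = j then
          coord (U + t • vel pq.1 pq.2 U) σ i * coord (U + t • vel pq.1 pq.2 U) τ i else 0)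
          ((if i = pq.1 then (if lbl i = j then coord U σ pq.2 * coord U τ i + coord U σ i * coord U τ pq.2
              else 0) else 0) -
            if i = pq.2 then (if lbl i = j then coord U σ pq.1 * coord U τ i + coord U σ i * coord U τ pq.1
              else 0) else 0) 0 := fun i => by
        by_cases hi : lbl i = j
        · simp only [if_pos hi]
          refine ((hasDerivAt_coord σ i U _).mul (hasDerivAt_coord τ i U _)).congr_deriv ?_
          simp only [zero_smul, add_zero, coord_vel]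
          split_ifs <;> ring
        · simp only [if_neg hi, ite_self, sub_zero]
          exact hasDerivAt_const _ _
      refine (HasDerivAt.fun_sum fun i (_ : i ∈ Finset.univ) => hterm i).congr_deriv ?_
      simp only [Finset.sum_sub_distrib, Finset.sum_ite_eq', Finset.mem_univ, if_true]
    have h3 := hasDerivAt_pair (H := fun t σ => pertH dl n lbl f s y (U + t • vel pq.1 pq.2 U) g σ)
      (H' := dH n lbl f s y U g pq) (hasDerivAt_pertH hef hdl U g hpq)
      (Θ := fun t x x' => Θ (U + t • vel pq.1 pq.2 U) pq x x') (Θ' := Θ' pq) (fun x x' => ?_)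
    · simp only [zero_smul, add_zero] at h3
      exact h3
    · refine ((((ho e _ _).const_mul (csize lbl f : ℝ)).sub ((ho f _ _).const_mul (csize lbl e : ℝ))).mul
        ((hasDerivAt_coord _ _ U _).mul (hasDerivAt_coord _ _ U _))).congr_deriv ?_
      simp only [Θ', dif, zero_smul, add_zero, coord_vel, hpq'.1, hpq'.2, if_true, if_neg hne,
        if_neg hne.symm, if_neg hef, if_neg hef.symm, Pi.mul_apply, Pi.sub_apply]
      ring
  rw [Finset.sum_congr rfl key, ← avg3_sum]
  congr 1
  funext x x' w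
  set A := pick2 a x x'
  set B := pick2 b x x'
  set D0 := dif lbl e f U A B
  have hg : ∀ ρ, ∑ pq ∈ cpairs lbl e f, Θ U pq x x' * (∑ u : GIdx Unit P N, g u * (y (Sum.inl u.1) *
      mderiv (expo1 u.1) (fun _ => featV n lbl f U ρ) (fun _ => featV n lbl f (vel pq.1 pq.2 U) ρ) u.2)) =
      ⟪g, svec n lbl e f y U (A, B, ρ)⟫ := fun ρ => by
    simp only [svec]
    simp only [← sum_vel_featV hef U A B ρ (dif lbl e f U A B), PiLp.inner_apply, RCLike.inner_apply,
      conj_trivial, ← sum_mderiv, Finset.mul_sum, Finset.sum_mul, Θ, A, B]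
    rw [Finset.sum_comm]
    exact Finset.sum_congr rfl fun u _ => Finset.sum_congr rfl fun pq _ => by ring
  have hd : ∀ ρ, ∑ pq ∈ cpairs lbl e f, Θ U pq x x' * (2 * (s * y (Sum.inr ())) *
      (coord U ρ pq.1 * coord U ρ pq.2) / (max n N : ℕ)) =
      2 * (s * y (Sum.inr ())) * D0 / (max n N : ℕ) * (clsOv lbl e U A ρ * clsOv lbl f U B ρ) := fun ρ => by
    rw [show clsOv lbl e U A ρ * clsOv lbl f U B ρ = _ from (sum_cpairs (lbl := lbl) (e := e) (f := f)
      (fun i => coord U A i * coord U ρ i) fun i => coord U B i * coord U ρ i).symm, Finset.mul_sum]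
    exact Finset.sum_congr rfl fun pq _ => by simp only [Θ, A, B, D0]; ring
  have h1 : ∑ pq ∈ cpairs lbl e f, (coord U A pq.2 * coord U B pq.1) *
      (coord U A pq.1 * coord U B pq.2) = clsOv lbl e U A B * clsOv lbl f U A B := by
    rw [show clsOv lbl e U A B * clsOv lbl f U A B = _ from (sum_cpairs (lbl := lbl) (e := e) (f := f)
      (fun i => coord U A i * coord U B i) fun i => coord U A i * coord U B i).symm]
    exact Finset.sum_congr rfl fun pq _ => by ring
  have h2 : ∑ pq ∈ cpairs lbl e f, (coord U A pq.1 * coord U B pq.2) *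
      (coord U A pq.1 * coord U B pq.2) = clsOv lbl e U A A * clsOv lbl f U B B := by
    rw [show clsOv lbl e U A A * clsOv lbl f U B B = _ from (sum_cpairs (lbl := lbl) (e := e) (f := f)
      (fun i => coord U A i * coord U A i) fun i => coord U B i * coord U B i).symm]
    exact Finset.sum_congr rfl fun pq _ => by ring
  have hsplit : ∀ pq, Θ' pq x x' + Θ U pq x x' *
      (dH n lbl f s y U g pq x + dH n lbl f s y U g pq x' - 2 * dH n lbl f s y U g pq w) =
      ((csize lbl f : ℝ) + csize lbl e) * ((coord U A pq.2 * coord U B pq.1) *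
          (coord U A pq.1 * coord U B pq.2)) +
        ((csize lbl f : ℝ) + csize lbl e) * ((coord U A pq.1 * coord U B pq.2) *
          (coord U A pq.1 * coord U B pq.2)) +
        (D0 * (coord U A pq.2 * coord U B pq.2) - D0 * (coord U A pq.1 * coord U B pq.1)) +
        (Θ U pq x x' * (∑ u : GIdx Unit P N, g u * (y (Sum.inl u.1) * mderiv (expo1 u.1)
            (fun _ => featV n lbl f U x) (fun _ => featV n lbl f (vel pq.1 pq.2 U) x) u.2)) +
          Θ U pq x x' * (∑ u : GIdx Unit P N, g u * (y (Sum.inl u.1) * mderiv (expo1 u.1)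
            (fun _ => featV n lbl f U x') (fun _ => featV n lbl f (vel pq.1 pq.2 U) x') u.2)) -
          2 * (Θ U pq x x' * (∑ u : GIdx Unit P N, g u * (y (Sum.inl u.1) * mderiv (expo1 u.1)
            (fun _ => featV n lbl f U w) (fun _ => featV n lbl f (vel pq.1 pq.2 U) w) u.2)))) -
        (Θ U pq x x' * (2 * (s * y (Sum.inr ())) * (coord U x pq.1 * coord U x pq.2) / (max n N : ℕ)) +
          Θ U pq x x' * (2 * (s * y (Sum.inr ())) * (coord U x' pq.1 * coord U x' pq.2) / (max n N : ℕ)) -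
          2 * (Θ U pq x x' * (2 * (s * y (Sum.inr ())) * (coord U w pq.1 * coord U w pq.2) /
            (max n N : ℕ)))) := fun pq => by
    simp only [Θ', dH, A, B, D0]
    ring
  simp only [hsplit, Finset.sum_add_distrib, Finset.sum_sub_distrib, ← Finset.mul_sum, hg, hd, h1, h2,
    sum_cpairs_fst fun i => coord U A i * coord U B i, sum_cpairs_snd fun i => coord U A i * coord U B i]
  simp only [sq2, err2, fld2, A, B, D0, dif, clsOv]
  ring

lemma abs_err2_le (hn : 1 ≤ n) {U : Fin N → Fin N → ℝ} (hU : (Matrix.of U)ᵀ * Matrix.of U = 1)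
    (hs : 0 ≤ s) (hy : y ∈ PBox s) (a b : Fin 2) (x x' w : Fin N → Bool) :
    |err2 n lbl e f s y U a b x x' w| ≤ 4 * (N : ℝ) ^ 3 + 32 * (s ^ 2 * (N : ℝ) ^ 4 / n) := by
  set A := pick2 a x x'
  set B := pick2 b x x'
  have hp : ∀ (i j : κ) σ₁ σ₂ σ₃ σ₄, |clsOv lbl i U σ₁ σ₂ * clsOv lbl j U σ₃ σ₄| ≤ (N : ℝ) ^ 2 :=
    fun i j σ₁ σ₂ σ₃ σ₄ => by
      rw [abs_mul, sq]
      exact mul_le_mul (abs_clsOv_le i hU _ _) (abs_clsOv_le j hU _ _) (abs_nonneg _) (Nat.cast_nonneg N)
  have hM : (n : ℝ) ≤ (max n N : ℕ) := by exact_mod_cast le_max_left n N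
  have hn0 : (0 : ℝ) < n := by exact_mod_cast hn
  refine (abs_sub _ _).trans (add_le_add ?_ ?_)
  · rw [abs_mul, abs_of_nonneg (by positivity : (0 : ℝ) ≤ (csize lbl f : ℝ) + csize lbl e)]
    refine (mul_le_mul (add_le_add (csize_le f) (csize_le e)) ((abs_add_le _ _).trans
      (add_le_add (hp _ _ _ _ _ _) (hp _ _ _ _ _ _))) (abs_nonneg _) (by positivity)).trans_eq ?_
    ring
  · rw [abs_mul, abs_div, abs_mul, abs_mul, abs_mul, Nat.abs_cast, abs_two, abs_of_nonneg hs]
    have h1 := _root_.abs_le.1 (hp e f A x B x)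
    have h2 := _root_.abs_le.1 (hp e f A x' B x')
    have h3 := _root_.abs_le.1 (hp e f A w B w)
    have h4 : |clsOv lbl e U A x * clsOv lbl f U B x + clsOv lbl e U A x' * clsOv lbl f U B x' -
        2 * (clsOv lbl e U A w * clsOv lbl f U B w)| ≤ 4 * (N : ℝ) ^ 2 :=
      _root_.abs_le.2 ⟨by linarith, by linarith⟩
    refine (mul_le_mul (div_le_div₀ (by positivity) (mul_le_mul
      (mul_le_mul_of_nonneg_left (mul_le_mul_of_nonneg_left (abs_pbox hy _) hs) two_pos.le)
      (abs_dif_le hU A B) (abs_nonneg _) (by positivity)) hn0 hM) h4 (abs_nonneg _) (by positivity)).trans_eq ?_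
    ring

theorem split_bound :
    ∃ C : ℝ, ∀ (P N n : ℕ) (dl : κ → ℝ) (lbl : Fin N → κ) (e f : κ) (s : ℝ) (y : CIdx Unit P → ℝ)
      (ν : Measure (Fin N → Fin N → ℝ)), OrthInvLaw N ν → N ≤ n → 1 ≤ N → e ≠ f → dl e = dl f →
      0 ≤ s → y ∈ PBox s →
      ∀ (a b : Fin 2), pmean ν (fun U g => pgibbs dl n lbl f s y U g (r := 2) fun x =>
        ((csize lbl f : ℝ) * (∑ i, if lbl i = e then coord U (x a) i * coord U (x b) i else 0) -
          (csize lbl e : ℝ) * ∑ i, if lbl i = f then coord U (x a) i * coord U (x b) i else 0) ^ 2) ≤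
        C * ((P : ℝ) + 1) ^ 2 * (N : ℝ) ^ 4 * (1 / (N : ℝ) + s / Real.sqrt n + s ^ 2 / n) := by
  refine ⟨200, fun P N n dl lbl e f s y ν hν hNn hN hef hdl hs hy a b => ?_⟩
  set A : ℝ := (Fintype.card (CIdx Unit P) : ℝ) with hA
  have := hν.prob
  have hn : 1 ≤ n := hN.trans hNn
  have hmax : max n N = n := max_eq_left hNn
  set γ := stdGaussian (EuclideanSpace ℝ (GIdx Unit P N))
  set μ := ν.prod γ with hμ
  have hμp : IsProbabilityMeasure μ := by rw [hμ]; infer_instance
  have hso : Orth.StabLaw ∅ ν := Orth.OrthInvLaw.stabLaw hν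
  have horth : ∀ᵐ z ∂μ, (Matrix.of z.1)ᵀ * Matrix.of z.1 = 1 :=
    Measure.quasiMeasurePreserving_fst.ae hν.orth
  set M := (4 * A * ((P : ℝ) + 1)) * s * ((N : ℝ) ^ 3 * (Real.sqrt N / Real.sqrt (max n N : ℕ)))
  set H := fun (z : (Fin N → Fin N → ℝ) × EuclideanSpace ℝ (GIdx Unit P N)) σ =>
    pertH dl n lbl f s y z.1 z.2 σ
  set Q := fun z => avg3 (H z) (sq2 lbl e f z.1 a b) with hQ
  set R := fun z => avg3 (H z) (err2 n lbl e f s y z.1 a b) with hR
  set G := fun z => avg3 (H z) (fld2 n lbl e f y z.1 z.2 a b) with hG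
  have hHm : ∀ σ, Measurable fun z => H z σ := fun σ => (continuous_pertHU σ).measurable
  have ho : ∀ j σ τ, Continuous fun z : (Fin N → Fin N → ℝ) × EuclideanSpace ℝ (GIdx Unit P N) =>
      clsOv lbl j z.1 σ τ := fun j σ τ => by
    refine continuous_finsetSum _ fun i _ => ?_
    split_ifs
    · exact ((continuous_coordU σ i).comp continuous_fst).mul ((continuous_coordU τ i).comp continuous_fst)
    · exact continuous_const
  have hiQ : Integrable Q μ := Integrable.of_bound
    (measurable_avg3 hHm fun x x' w => by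
      refine Continuous.measurable ?_
      simp only [sq2, dif]
      fun_prop (disch := assumption)).aestronglyMeasurable ((2 * (N : ℝ) ^ 2) ^ 2)
    (horth.mono fun z hz => abs_avg3_le _ fun x x' w => by
      rw [sq2, abs_pow]
      exact pow_le_pow_left₀ (abs_nonneg _) (abs_dif_le hz _ _) 2)
  have hiR : Integrable R μ := Integrable.of_bound
    (measurable_avg3 hHm fun x x' w => by
      refine Continuous.measurable ?_
      simp only [err2, dif]
      fun_prop (disch := assumption)).aestronglyMeasurable _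
    (horth.mono fun z hz => abs_avg3_le _ (abs_err2_le hn hz hs hy a b))
  have hsv : ∀ p, Continuous fun U => svec n lbl e f y U p := fun p => by
    refine (PiLp.continuous_toLp 2 _).comp (continuous_pi fun x => continuous_const.mul ?_)
    simp only [mderiv, WithLp.ofLp_smul, Pi.smul_apply, smul_eq_mul, dif, clsOv]
    have hc : ∀ σ i, Continuous fun U => featV n lbl f U σ i := fun σ i => (contDiff_featV σ i).continuous
    have hk : ∀ σ i, Continuous fun U : Fin N → Fin N → ℝ => coord U σ i := continuous_coordU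
    refine continuous_finsetSum _ fun u _ => Continuous.fun_mul
      (continuous_finsetProd _ fun u' _ => hc p.2.2 (x.2 u'.1 u'.2))
      (Continuous.fun_mul ?_ (hc p.2.1 (x.2 u.1 u.2)))
    have ho' : ∀ j σ τ, Continuous fun U : Fin N → Fin N → ℝ =>
        ∑ i, if lbl i = j then coord U σ i * coord U τ i else 0 := fun j σ τ =>
      continuous_finsetSum _ fun i _ => by
        split_ifs
        · exact (hk σ i).mul (hk τ i)
        · exact continuous_const
    exact (((continuous_const.mul (ho' _ _ _)).sub (continuous_const.mul (ho' _ _ _))).mul (ho' _ _ _)).neg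
  have hfld : ∀ U (g : EuclideanSpace ℝ (GIdx Unit P N)) (Φ : ℝ),
      (∀ p, |⟪g, svec n lbl e f y U p⟫| ≤ Φ) → ∀ x x' w, |fld2 n lbl e f y U g a b x x' w| ≤ 4 * Φ := by
    intro U g Φ hΦ x x' w
    have h1 := _root_.abs_le.1 (hΦ (pick2 a x x', pick2 b x x', x))
    have h2 := _root_.abs_le.1 (hΦ (pick2 a x x', pick2 b x x', x'))
    have h3 := _root_.abs_le.1 (hΦ (pick2 a x x', pick2 b x x', w))
    exact _root_.abs_le.2 ⟨by simp only [fld2]; linarith, by simp only [fld2]; linarith⟩
  have hiG : Integrable G μ := by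
    refine ((((IsGaussian.integrable_id (μ := γ)).norm.mul_const (4 * M))).comp_snd ν).mono'
      (measurable_avg3 hHm fun x x' w => Continuous.measurable ?_).aestronglyMeasurable
      (horth.mono fun z hz => abs_avg3_le _ fun x x' w => ?_)
    · have h : ∀ p, Continuous fun z : (Fin N → Fin N → ℝ) × EuclideanSpace ℝ (GIdx Unit P N) =>
          ⟪z.2, svec n lbl e f y z.1 p⟫ := fun p => continuous_snd.inner ((hsv p).comp continuous_fst)
      exact ((h _).add (h _)).sub (continuous_const.mul (h _))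
    · refine (hfld z.1 z.2 (‖z.2‖ * M) (fun p => (abs_real_inner_le_norm _ _).trans
        (mul_le_mul_of_nonneg_left (norm_svec_le hN hz hy p) (norm_nonneg _))) x x' w).trans_eq ?_
      simp only [id]
      ring
  have hzero : ∫ z, (-Q z + (R z + G z)) ∂μ = 0 := by
    have hi : Integrable (fun z => -Q z + (R z + G z)) μ := hiQ.neg.add (hiR.add hiG)
    rw [hμ, integral_prod_symm _ hi]
    refine integral_eq_zero_of_ae (Filter.Eventually.of_forall fun g => ?_)
    simp only [Pi.zero_apply]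
    have e1 : ∀ U, -Q (U, g) + (R (U, g) + G (U, g)) = ∑ pq ∈ cpairs lbl e f,
        Orth.dl (fun U' => ∑ x, ∑ x', gw (fun σ => pertH dl n lbl f s y U' g σ) x *
          gw (fun σ => pertH dl n lbl f s y U' g σ) x' *
          (dif lbl e f U' (pick2 a x x') (pick2 b x x') *
            (coord U' (pick2 a x x') pq.1 * coord U' (pick2 b x x') pq.2))) pq.2 pq.1 U := fun U => by
      rw [sum_dl_split hef hdl U g a b]
      simp only [hQ, hR, hG, ← avg3_add]
      rw [show -avg3 (H (U, g)) (sq2 lbl e f U a b) =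
        avg3 (H (U, g)) (fun x x' w => -sq2 lbl e f U a b x x' w) by
          simp only [avg3, mul_neg, Finset.sum_neg_distrib], ← avg3_add]
    have hC : ∀ pq, ContDiff ℝ 1 fun U' => ∑ x, ∑ x', gw (fun σ => pertH dl n lbl f s y U' g σ) x *
        gw (fun σ => pertH dl n lbl f s y U' g σ) x' *
        (dif lbl e f U' (pick2 a x x') (pick2 b x x') *
          (coord U' (pick2 a x x') (pq : Fin N × Fin N).1 * coord U' (pick2 b x x') pq.2)) := by
      intro pq
      have hw : ∀ x, ContDiff ℝ 1 fun U' => gw (fun σ => pertH dl n lbl f s y U' g σ) x := fun x =>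
        (contDiff_pertH g x).exp.div (ContDiff.sum fun σ _ => (contDiff_pertH g σ).exp)
          fun U' => (Loop2.gw_den_pos fun σ => pertH dl n lbl f s y U' g σ).ne'
      have ho' : ∀ j σ τ, ContDiff ℝ 1 fun U' => clsOv lbl j U' σ τ := fun j σ τ => by
        refine ContDiff.sum fun i _ => ?_
        split_ifs
        · exact (contDiff_coord σ i).mul (contDiff_coord τ i)
        · exact contDiff_const
      exact ContDiff.sum fun x _ => ContDiff.sum fun x' _ => ((hw x).mul (hw x')).mul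
        (((contDiff_const.mul (ho' e _ _)).sub (contDiff_const.mul (ho' f _ _))).mul
          ((contDiff_coord _ _).mul (contDiff_coord _ _)))
    simp only [e1]
    rw [integral_finsetSum _ fun pq _ => hso.integrable (Orth.continuous_dl (hC pq) _ _)]
    exact Finset.sum_eq_zero fun pq _ => Orth.integral_dl hso (hC pq) _ _
  have hGb : |∫ z, G z ∂μ| ≤ 20 * Real.sqrt N * M := by
    refine (abs_integral_le_integral_abs).trans ?_
    rw [hμ, integral_prod _ hiG.abs]
    refine (integral_mono_ae hiG.abs.integral_prod_left (integrable_const (20 * Real.sqrt N * M))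
      (hν.orth.mono fun U hU => ?_)).trans_eq (by simp)
    obtain ⟨Φ, hΦi, hΦ, hΦv⟩ := exists_dom (w := svec n lbl e f y U) (M := M)
      (norm_svec_le hN hU hy) hN (Loop2.log_triples hN)
    calc ∫ g, |G (U, g)| ∂γ ≤ ∫ g, 4 * Φ g ∂γ :=
          integral_mono_of_nonneg (Filter.Eventually.of_forall fun g => abs_nonneg _)
            (hΦi.const_mul 4) (Filter.Eventually.of_forall fun g =>
              abs_avg3_le _ (hfld U g (Φ g) (hΦ g)))
      _ ≤ 20 * Real.sqrt N * M := by rw [integral_const_mul]; linarith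
  have hRb : |∫ z, R z ∂μ| ≤ 4 * (N : ℝ) ^ 3 + 32 * (s ^ 2 * (N : ℝ) ^ 4 / n) := by
    rw [← Real.norm_eq_abs]
    refine (norm_integral_le_of_norm_le_const (C := 4 * (N : ℝ) ^ 3 + 32 * (s ^ 2 * (N : ℝ) ^ 4 / n))
      (horth.mono fun z hz => ?_)).trans_eq (by simp)
    exact abs_avg3_le _ (abs_err2_le hn hz hs hy a b)
  have hval : pmean ν (fun U g => pgibbs dl n lbl f s y U g (r := 2) fun x =>
      ((csize lbl f : ℝ) * (∑ i, if lbl i = e then coord U (x a) i * coord U (x b) i else 0) -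
        (csize lbl e : ℝ) * ∑ i, if lbl i = f then coord U (x a) i * coord U (x b) i else 0) ^ 2) =
      ∫ z, Q z ∂μ := by
    refine integral_congr_ae (Filter.Eventually.of_forall fun z => ?_)
    exact sum_fin2 (H z) fun x => dif lbl e f z.1 (x a) (x b) ^ 2
  rw [hval]
  have hn0 : (0 : ℝ) < n := by exact_mod_cast hn
  have hN0 : (0 : ℝ) < N := by exact_mod_cast hN
  rw [integral_add (hiQ.fun_neg) (hiR.fun_add hiG), integral_add hiR hiG, integral_neg] at hzero
  have hM : 20 * Real.sqrt N * M = 80 * A * ((P : ℝ) + 1) * ((N : ℝ) ^ 4 * (s / Real.sqrt n)) := by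
    simp only [M, hmax]
    have hr := Real.mul_self_sqrt hN0.le
    field_simp
    linear_combination (80 * A * s) * hr
  have e1 : (N : ℝ) ^ 4 * (1 / (N : ℝ)) = (N : ℝ) ^ 3 := by field_simp
  have e2 : s ^ 2 * (N : ℝ) ^ 4 / n = (N : ℝ) ^ 4 * (s ^ 2 / n) := by ring
  have hA0 : 0 ≤ A := Nat.cast_nonneg _
  have h1 : 0 ≤ (N : ℝ) ^ 4 * (s / Real.sqrt n) := by positivity
  have h2 : 0 ≤ (N : ℝ) ^ 4 * (s ^ 2 / n) := by positivity
  have h3 : 0 ≤ (N : ℝ) ^ 3 := by positivity
  have hAP : A ≤ 2 * ((P : ℝ) + 1) := by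
    have h : Fintype.card (CIdx Unit P) ≤ (P + 1) + 1 := by
      refine (Fintype.card_sum (α := Mon Unit P) (β := Unit)).le.trans (add_le_add ?_ (by simp))
      exact (Fintype.card_subtype_le _).trans (by simp)
    have h' : A ≤ ((P : ℝ) + 1) + 1 := by
      simp only [A]
      exact_mod_cast h
    linarith [(Nat.cast_nonneg P : (0 : ℝ) ≤ P)]
  have hP1 : (1 : ℝ) ≤ ((P : ℝ) + 1) ^ 2 := one_le_pow₀ (by linarith [(Nat.cast_nonneg P : (0 : ℝ) ≤ P)])
  have hk : 80 * A * ((P : ℝ) + 1) ≤ 160 * ((P : ℝ) + 1) ^ 2 := by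
    rw [sq, ← mul_assoc]
    exact mul_le_mul_of_nonneg_right (by linarith) (by positivity)
  have hR' := _root_.abs_le.1 hRb
  have hG' := _root_.abs_le.1 hGb
  rw [mul_assoc, mul_add ((N : ℝ) ^ 4), mul_add ((N : ℝ) ^ 4), e1]
  nlinarith [mul_le_mul_of_nonneg_right hk h1, mul_le_mul_of_nonneg_right hP1 h3,
    mul_le_mul_of_nonneg_right hP1 h2, mul_nonneg (zero_le_one.trans hP1) h1,
    mul_nonneg (zero_le_one.trans hP1) h2, mul_nonneg (zero_le_one.trans hP1) h3]

end Vale.Agent.P166F.Low
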